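import Vale.Agent.P218WC.Stm
import Mathlib.Order.Monotone.Extension
import Mathlib.MeasureTheory.Measure.Stieltjes

/-! The defect in Brakke's inequality. -/

open MeasureTheory Set Filter Topology Metric Module
open scoped ENNReal NNReal RealInnerProductSpace ContDiff

namespace Vale.Agent.P218WC

open Vale.Agent.P218UA Vale.Agent.P218WA
open Vale.Agent.P218UX (locFin ae_ar cdAt hasDerivAt_fst)
open Vale.Agent.P218.H63 (lap)

variable {w f g : ℝ → E3 → ℝ} {I Z J : Set ℝ} {A t a b : ℝ} {n : ℕ}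

lemma _root_.Vale.Agent.P218WA.Test.cdAt (hf : Test n I J f) (ht : t ∈ J) (x : E3) :
    ContDiffAt ℝ n (fun p : ℝ × E3 => f p.1 p.2) (t, x) := P218UX.cdAt hf.isOpen hf.smooth ht x

lemma _root_.Vale.Agent.P218WA.Test.of_le (hf : Test n I J f) {m : ℕ} (h : m ≤ n) : Test m I J f :=
  ⟨hf.isOpen, hf.conn, hf.sub, hf.smooth.of_le (by exact_mod_cast h), hf.supp⟩

lemma _root_.Vale.Agent.P218WA.Test.mul (hf : Test n I J f)
    (hg : ContDiffOn ℝ n (fun p : ℝ × E3 => g p.1 p.2) (J ×ˢ univ)) :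
    Test n I J fun t x => f t x * g t x :=
  ⟨hf.isOpen, hf.conn, hf.sub, hf.smooth.mul hg,
    hf.supp.imp fun _ h => ⟨h.1, fun t ht x hx => by rw [h.2 t ht x hx, zero_mul]⟩⟩

lemma _root_.Vale.Agent.P218WA.Test.lin (hf : Test n I J f) (hg : Test n I J g) (α β : ℝ) :
    Test n I J fun t x => α * f t x + β * g t x := by
  obtain ⟨K, h1, h2⟩ := hf.supp
  obtain ⟨K', h3, h4⟩ := hg.supp
  exact ⟨hf.isOpen, hf.conn, hf.sub, (contDiffOn_const.mul hf.smooth).add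
    (contDiffOn_const.mul hg.smooth), K ∪ K', h1.union h3, fun t ht x hx => by
      rw [h2 t ht x fun h => hx (Or.inl h), h4 t ht x fun h => hx (Or.inr h)]; ring⟩

lemma _root_.Vale.Agent.P218WA.Test.mono (hf : Test n I J f) {J' : Set ℝ} (h1 : IsOpen J')
    (h2 : J'.OrdConnected) (h3 : J' ⊆ J) : Test n I J' f :=
  ⟨h1, h2, h3.trans hf.sub, hf.smooth.mono (prod_mono_left h3),
    hf.supp.imp fun _ h => ⟨h.1, fun t ht => h.2 t (h3 ht)⟩⟩

lemma _root_.Vale.Agent.P218WA.Test.slice (hf : Test n I J f) (ht : t ∈ J) : ContDiff ℝ n (f t) :=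
  hf.smooth.comp_contDiff (contDiff_const.prodMk contDiff_id) fun _ => ⟨ht, mem_univ _⟩

lemma _root_.Vale.Agent.P218WA.Test.integrable (hf : Test n I J f) (h : IsW0 w I Z A)
    (ht : t ∈ J) : Integrable (f t) (ar (w t)) := by
  obtain ⟨K, h1, h2⟩ := hf.supp
  have := locFin (h.slice (hf.sub ht))
  exact (hf.slice ht).continuous.integrable_of_hasCompactSupport
    (HasCompactSupport.intro h1 (h2 t ht))

lemma test_static {φ : E3 → ℝ} (hf : Test n I J f) {m : ℕ} (hφ : ContDiff ℝ m φ)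
    (hc : HasCompactSupport φ) : Test m I J fun _ => φ :=
  ⟨hf.isOpen, hf.conn, hf.sub, (hφ.comp contDiff_snd).contDiffOn, _, hc.isCompact,
    fun _ _ _ hx => image_eq_zero_of_notMem_tsupport hx⟩

/-- at a regular time `bk` is the derivative of the integral -/
theorem ddt (h : IsW0 w I Z A) (hf : Test 1 I J f) (ht : t ∈ J \ Z) :
    Integrable (fun x => deriv (fun s => f s x) t
      - lap (w t) x * ⟪gradient (f t) x, gradient (w t) x⟫ - lap (w t) x ^ 2 * f t x) (ar (w t)) ∧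
    HasDerivAt (fun s => ∫ x, f s x ∂(ar (w s))) (bk w f t) t := by
  obtain ⟨K, h1, h2⟩ := hf.supp
  obtain ⟨a, b, h3, -, h4⟩ := h.loc ⟨hf.sub ht.1, ht.2⟩
  exact P218UX.ddt' h4.toIsFlow (hf.isOpen.inter isOpen_Ioo) inter_subset_right
    (hf.smooth.mono (prod_mono_left inter_subset_left)) h1 (fun s hs => h2 s hs.1) ⟨ht.1, h3⟩

lemma bk_integrable (h : IsW0 w I Z A) (hf : Test 1 I J f) (ht : t ∈ J) :
    Integrable (fun x => deriv (fun s => f s x) t
      - lap (w t) x * ⟪gradient (f t) x, gradient (w t) x⟫ - lap (w t) x ^ 2 * f t x)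
      (ar (w t)) := by
  by_cases hZ : t ∈ Z
  · rw [h.ar_sing hZ]; exact integrable_zero_measure
  · exact (ddt h hf ⟨ht, hZ⟩).1

theorem bk_int (h : IsW0 w I Z A) (hf : Test 1 I J f) (ha : a ∈ J) (hb : b ∈ J) :
    IntervalIntegrable (bk w f) volume a b := by
  obtain ⟨K, h1, h2⟩ := hf.supp
  have hab := hf.conn.uIcc_subset ha hb
  have c0 : ContinuousOn (fun p : ℝ × E3 => f p.1 p.2) (J ×ˢ univ) := hf.smooth.continuousOn
  have c1 : ContinuousOn (fun p : ℝ × E3 => deriv (fun s => f s p.2) p.1) (J ×ˢ univ) :=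
    fun p hp => (P218UV.continuousAt_dt (hf.cdAt hp.1 p.2)).continuousWithinAt
  have c2 : ContinuousOn (fun p : ℝ × E3 => gradient (f p.1) p.2) (J ×ˢ univ) := fun p hp =>
    (P218UV.contDiffAt_gradient (m := 0) (hf.cdAt hp.1 p.2)
      (by simp)).continuousAt.continuousWithinAt
  obtain ⟨M, hM⟩ := (isCompact_uIcc.prod h1).exists_bound_of_continuousOn
    (((c1.abs.add c2.norm).add c0.abs).mono (prod_mono hab (subset_univ _)))
  have s1 : (J \ Z) ×ˢ (univ : Set E3) ⊆ J ×ˢ univ := prod_mono_left sdiff_subset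
  have s2 : (J \ Z) ×ˢ (univ : Set E3) ⊆ (I \ Z) ×ˢ univ :=
    prod_mono_left (sdiff_subset_sdiff_left hf.sub)
  refine slice_int h hf.isOpen hf.sub (g := fun p : ℝ × E3 => deriv (fun s => f s p.2) p.1
    - lap (w p.1) p.2 * ⟪gradient (f p.1) p.2, gradient (w p.1) p.2⟫
    - lap (w p.1) p.2 ^ 2 * f p.1 p.2) (((c1.mono s1).sub (((continuousOn_lap h).mono s2).mul
      ((c2.mono s1).inner ((continuousOn_grad h).mono s2)))).sub
      ((((continuousOn_lap h).mono s2).pow 2).mul (c0.mono s1))) h1 (M := 2 * M) hab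
    (fun t ht x hx => ?_) fun t ht x hx h0 => ?_
  · have e1 : (fun s => f s x) =ᶠ[𝓝 t] fun _ => 0 := by
      filter_upwards [hf.isOpen.mem_nhds (hab ht)] with s hs using h2 s hs x hx
    have e2 : f t =ᶠ[𝓝 x] fun _ => 0 := by
      filter_upwards [h1.isClosed.isOpen_compl.mem_nhds hx] with y hy using h2 t (hab ht) y hy
    simp [e1.deriv_eq, e2.gradient_eq, h2 t (hab ht) x hx]
  · have e1 := (le_abs_self _).trans (hM (t, x) ⟨ht, hx⟩)
    have e2 := abs_real_inner_le_norm (gradient (f t) x) (gradient (w t) x)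
    rw [((h.slice (hf.sub (hab ht))).eik x h0).self_of_nhds, mul_one] at e2
    simp only [Pi.add_apply] at e1 ⊢
    refine (abs_sub _ _).trans ((add_le_add_left (abs_sub _ _) _).trans ?_)
    rw [abs_mul, abs_mul, abs_pow, ← sq_abs (lap (w t) x)]
    have e3 := abs_nonneg (deriv (fun s => f s x) t)
    have e4 := abs_nonneg (f t x)
    have e5 := abs_nonneg ⟪gradient (f t) x, gradient (w t) x⟫
    have e6 := abs_nonneg (lap (w t) x)
    generalize |lap (w t) x| = H at *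
    generalize |⟪gradient (f t) x, gradient (w t) x⟫| = u at *
    have e7 : H * u ≤ H * M := mul_le_mul_of_nonneg_left (by linarith) e6
    have e8 : H ^ 2 * |f t x| ≤ H ^ 2 * M := mul_le_mul_of_nonneg_left (by linarith) (sq_nonneg H)
    nlinarith [mul_nonneg (show 0 ≤ M by linarith) (sq_nonneg (H - 1))]

lemma bk_lin (h : IsW0 w I Z A) (hf : Test 1 I J f) (hg : Test 1 I J g) (α β : ℝ) (ht : t ∈ J) :
    bk w (fun t x => α * f t x + β * g t x) t = α * bk w f t + β * bk w g t := by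
  by_cases hZ : t ∈ Z
  · simp [bk, h.ar_sing hZ]
  refine (ddt h (hf.lin hg α β) ⟨ht, hZ⟩).2.unique (HasDerivAt.congr_of_eventuallyEq
    (((ddt h hf ⟨ht, hZ⟩).2.const_mul α).add ((ddt h hg ⟨ht, hZ⟩).2.const_mul β)) ?_)
  filter_upwards [hf.isOpen.mem_nhds ht] with s hs
  rw [integral_add ((hf.integrable h hs).const_mul α) ((hg.integrable h hs).const_mul β),
    integral_const_mul, integral_const_mul]
  rfl

theorem dfc_lin (h : IsW0 w I Z A) (hf : Test 1 I J f) (hg : Test 1 I J g) (ha : a ∈ J)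
    (hb : b ∈ J) (α β : ℝ) :
    dfc w (fun t x => α * f t x + β * g t x) a b = α * dfc w f a b + β * dfc w g a b := by
  have e : ∀ s ∈ J, ∫ x, (α * f s x + β * g s x) ∂(ar (w s))
      = α * ∫ x, f s x ∂(ar (w s)) + β * ∫ x, g s x ∂(ar (w s)) := fun s hs => by
    rw [integral_add ((hf.integrable h hs).const_mul α) ((hg.integrable h hs).const_mul β),
      integral_const_mul, integral_const_mul]
  rw [dfc, e a ha, e b hb, intervalIntegral.integral_congr
    (g := fun t => α * bk w f t + β * bk w g t)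
    fun t ht => bk_lin h hf hg α β (hf.conn.uIcc_subset ha hb ht),
    intervalIntegral.integral_add ((bk_int h hf ha hb).const_mul α)
      ((bk_int h hg ha hb).const_mul β), intervalIntegral.integral_const_mul,
    intervalIntegral.integral_const_mul, dfc, dfc]
  ring

theorem dfc_add (h : IsW0 w I Z A) (hf : Test 1 I J f) (ha : a ∈ J) (hb : b ∈ J) {c : ℝ}
    (hc : c ∈ J) : dfc w f a b + dfc w f b c = dfc w f a c := by
  rw [dfc, dfc, dfc, ← intervalIntegral.integral_add_adjacent_intervals (bk_int h hf ha hb)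
    (bk_int h hf hb hc)]
  ring

lemma dfc_congr {U : Set ℝ} (hU : IsOpen U) (hab : uIcc a b ⊆ U) (e : ∀ t ∈ U, f t = g t) :
    dfc w f a b = dfc w g a b := by
  rw [dfc, dfc, e a (hab left_mem_uIcc), e b (hab right_mem_uIcc)]
  congr 1
  refine intervalIntegral.integral_congr fun t ht => ?_
  have e1 : ∀ x, deriv (fun s => f s x) t = deriv (fun s => g s x) t := fun x =>
    EventuallyEq.deriv_eq (by filter_upwards [hU.mem_nhds (hab ht)] with s hs using by rw [e s hs])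
  simp only [bk, e1, e t (hab ht)]

/-- Brakke's inequality for test functions which are nonnegative on an open interval -/
lemma brakke_open (h : IsW0 w I Z A) (hf : Test 1 I J f) (ha : a ∈ J \ Z) (hb : b ∈ J \ Z)
    (hab : a ≤ b) (h0 : ∀ t ∈ J, ∀ x, 0 ≤ f t x) : 0 ≤ dfc w f a b := by
  obtain ⟨K, h1, h2⟩ := hf.supp
  obtain ⟨δ, hδ, h3⟩ := isCompact_Icc.exists_cthickening_subset_open hf.isOpen
    (hf.conn.out ha.1 hb.1)
  set χ : ContDiffBump ((a + b) / 2) := ⟨(b - a) / 2 + δ / 2, (b - a) / 2 + δ, by linarith,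
    by linarith⟩ with hχ
  have h4 : closedBall ((a + b) / 2) χ.rOut ⊆ J := fun t ht => h3 (by
    rw [Real.closedBall_eq_Icc] at ht
    simp only [hχ] at ht
    refine mem_cthickening_of_dist_le t (max a (min t b)) δ _
      ⟨le_max_left _ _, max_le hab (min_le_right _ _)⟩ ?_
    rw [Real.dist_eq, abs_le]
    rcases le_total t b with h5 | h5
    · rw [min_eq_left h5]
      rcases le_total a t with h6 | h6
      · rw [max_eq_right h6]; constructor <;> linarith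
      · rw [max_eq_left h6]; constructor <;> linarith [ht.1]
    · rw [min_eq_right h5, max_eq_right hab]; constructor <;> linarith [ht.2])
  have h5 : ∀ t, t ∉ closedBall ((a + b) / 2) χ.rOut → χ t = 0 := fun t ht =>
    χ.zero_of_le_dist (not_le.1 ht).le
  rw [dfc_congr (g := fun t x => χ t * f t x) (U := ball ((a + b) / 2) χ.rIn) isOpen_ball
    (fun t ht => by
      rw [uIcc_of_le hab] at ht
      rw [Real.ball_eq_Ioo]
      simp only [hχ]
      constructor <;> linarith [ht.1, ht.2])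
    fun t ht => by simp [χ.one_of_mem_closedBall (ball_subset_closedBall ht)]]
  refine h.brakke _ (contDiff_iff_contDiffAt.2 fun p => ?_) (HasCompactSupport.intro
    ((isCompact_closedBall ((a + b) / 2) χ.rOut).prod h1) fun p hp => ?_) (fun t x => ?_) a
    ⟨hf.sub ha.1, ha.2⟩ b ⟨hf.sub hb.1, hb.2⟩ hab
  · by_cases hp : p.1 ∈ J
    · exact (χ.contDiff.comp contDiff_fst).contDiffAt.mul (hf.cdAt hp p.2)
    · refine (contDiffAt_const (c := 0)).congr_of_eventuallyEq ?_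
      filter_upwards [continuous_fst.continuousAt.eventually
        (isClosed_closedBall.isOpen_compl.mem_nhds fun h' => hp (h4 h'))] with q hq
      rw [h5 _ hq, zero_mul]
  · by_cases hp1 : p.1 ∈ closedBall ((a + b) / 2) χ.rOut
    · rw [h2 _ (h4 hp1) _ fun h' => hp ⟨hp1, h'⟩, mul_zero]
    · rw [h5 _ hp1, zero_mul]
  · by_cases hp1 : t ∈ closedBall ((a + b) / 2) χ.rOut
    · exact mul_nonneg χ.nonneg (h0 t (h4 hp1) x)
    · rw [h5 _ hp1, zero_mul]

theorem brakke (h : IsW0 w I Z A) (hf : Test 1 I J f) (ha : a ∈ J \ Z) (hb : b ∈ J \ Z)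
    (hab : a ≤ b) (h0 : ∀ t ∈ Icc a b, ∀ x, 0 ≤ f t x) : 0 ≤ dfc w f a b := by
  obtain ⟨K, h1, h2⟩ := hf.supp
  obtain ⟨R, hR0, hR⟩ := h1.isBounded.subset_closedBall_lt 0 0
  set β : ContDiffBump (0 : E3) := ⟨R, R + 1, hR0, by linarith⟩
  have hβ : Test 1 I J fun _ => β := test_static hf β.contDiff β.hasCompactSupport
  have hI := hf.conn.out ha.1 hb.1
  have key : ∀ ε > 0, 0 ≤ dfc w f a b + ε * dfc w (fun _ => β) a b := fun ε hε => by
    have hg := hf.lin hβ 1 ε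
    obtain ⟨U, V, u1, -, u2, u3, u4⟩ := generalized_tube_lemma isCompact_Icc h1
      (hg.smooth.continuousOn.isOpen_inter_preimage (hf.isOpen.prod isOpen_univ)
        (isOpen_Ioi (a := 0)))
      (fun p hp => ⟨⟨hI hp.1, trivial⟩, show 0 < 1 * f p.1 p.2 + ε * β p.2 by
        have := h0 p.1 hp.1 p.2
        rw [β.one_of_mem_closedBall (hR hp.2)]
        linarith⟩)
    obtain ⟨a', a1, a2⟩ := exists_Ioc_subset_of_mem_nhds
      ((u1.inter hf.isOpen).mem_nhds ⟨u2 (left_mem_Icc.2 hab), ha.1⟩) ⟨a - 1, by linarith⟩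
    obtain ⟨b', b1, b2⟩ := exists_Ico_subset_of_mem_nhds
      ((u1.inter hf.isOpen).mem_nhds ⟨u2 (right_mem_Icc.2 hab), hb.1⟩) ⟨b + 1, by linarith⟩
    have hs : Ioo a' b' ⊆ U ∩ J := fun t ht => by
      rcases le_total t a with h3 | h3
      · exact a2 ⟨ht.1, h3⟩
      rcases le_total t b with h4 | h4
      · exact ⟨u2 ⟨h3, h4⟩, hI ⟨h3, h4⟩⟩
      · exact b2 ⟨h4, ht.2⟩
    have h3 := brakke_open h (hg.mono isOpen_Ioo ordConnected_Ioo (hs.trans inter_subset_right))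
      ⟨⟨a1, hab.trans_lt b1⟩, ha.2⟩ ⟨⟨a1.trans_le hab, b1⟩, hb.2⟩ hab fun t ht x => by
        by_cases hx : x ∈ K
        · exact le_of_lt (u4 (show (t, x) ∈ U ×ˢ V from ⟨(hs ht).1, u3 hx⟩)).2
        · rw [h2 t (hs ht).2 x hx]
          have := β.nonneg' x
          positivity
    rwa [dfc_lin h hf hβ ha.1 hb.1, one_mul] at h3
  have h3 : Tendsto (fun ε : ℝ => dfc w f a b + ε * dfc w (fun _ => β) a b) (𝓝[>] 0)
      (𝓝 (dfc w f a b)) :=
    (Continuous.tendsto' (by fun_prop) _ _ (by simp)).mono_left nhdsWithin_le_nhds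
  exact ge_of_tendsto h3 (eventually_nhdsWithin_of_forall key)

theorem dfc_mono (h : IsW0 w I Z A) (hf : Test 1 I J f) (hg : Test 1 I J g) (ha : a ∈ J \ Z)
    (hb : b ∈ J \ Z) (hab : a ≤ b) (h0 : ∀ t ∈ Icc a b, ∀ x, f t x ≤ g t x) :
    dfc w f a b ≤ dfc w g a b := by
  have := brakke h (hg.lin hf 1 (-1)) ha hb hab fun t ht x => by linarith [h0 t ht x]
  rw [dfc_lin h hg hf ha.1 hb.1] at this
  linarith

theorem dfc_le (h : IsW0 w I Z A) (hf : Test 1 I J f) (hg : Test 1 I J g) (ha : a ∈ J \ Z)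
    (hb : b ∈ J \ Z) (hab : a ≤ b) (h0 : ∀ t ∈ Icc a b, ∀ x, |f t x| ≤ g t x) :
    |dfc w f a b| ≤ dfc w g a b := by
  have := brakke h (hg.lin hf 1 1) ha hb hab fun t ht x => by linarith [(abs_le.1 (h0 t ht x)).1]
  rw [dfc_lin h hg hf ha.1 hb.1] at this
  exact abs_le.2 ⟨by linarith, dfc_mono h hf hg ha hb hab fun t ht x => (abs_le.1 (h0 t ht x)).2⟩

/-- Green's formula at one time; one of the two functions has compact support -/
theorem bk_green_core (h : IsW0 w I Z A) {ψ : ℝ → E3 → ℝ} (hJ : IsOpen J) (hc : J.OrdConnected)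
    (hJI : J ⊆ I) (hψ : ContDiffOn ℝ 2 (fun p : ℝ × E3 => ψ p.1 p.2) (J ×ˢ univ))
    (hf : ContDiffOn ℝ 2 (fun p : ℝ × E3 => f p.1 p.2) (J ×ˢ univ)) {K : Set E3} (hK : IsCompact K)
    (hs : (∀ t ∈ J, ∀ x, x ∉ K → ψ t x = 0) ∨ ∀ t ∈ J, ∀ x, x ∉ K → f t x = 0) :
    Test 1 I J (fun t x => ψ t x * f t x) ∧ ∀ t ∈ J,
      Integrable (fun x => ψ t x * heat w f t x + f t x * adj w ψ t x) (ar (w t)) ∧
      bk w (fun t x => ψ t x * f t x) t
        = ∫ x, (ψ t x * heat w f t x + f t x * adj w ψ t x) ∂(ar (w t)) := by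
  have hT : Test 1 I J fun t x => ψ t x * f t x :=
    ⟨hJ, hc, hJI, (hψ.mul hf).of_le (by norm_num), K, hK, fun t ht x hx => by
      rcases hs with hs | hs
      · rw [hs t ht x hx, zero_mul]
      · rw [hs t ht x hx, mul_zero]⟩
  refine ⟨hT, fun t ht => ?_⟩
  by_cases hZ : t ∈ Z
  · simp [bk, h.ar_sing hZ]
  obtain ⟨a, b, h3, -, h4⟩ := h.loc ⟨hJI ht, hZ⟩
  have h5 := P218UX.green_core h4.toIsFlow (hJ.inter isOpen_Ioo) inter_subset_right
    (hψ.mono (prod_mono_left inter_subset_left)) (hf.mono (prod_mono_left inter_subset_left)) hK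
    (hs.imp (fun h s hs => h s hs.1) fun h s hs => h s hs.1) ⟨ht, h3⟩
  exact ⟨h5.1, (ddt h hT ⟨ht, hZ⟩).2.unique h5.2⟩

theorem green_core (h : IsW0 w I Z A) {ψ : ℝ → E3 → ℝ} (hJ : IsOpen J) (hc : J.OrdConnected)
    (hJI : J ⊆ I) (hψ : ContDiffOn ℝ 2 (fun p : ℝ × E3 => ψ p.1 p.2) (J ×ˢ univ))
    (hf : ContDiffOn ℝ 2 (fun p : ℝ × E3 => f p.1 p.2) (J ×ˢ univ)) {K : Set E3} (hK : IsCompact K)
    (hs : (∀ t ∈ J, ∀ x, x ∉ K → ψ t x = 0) ∨ ∀ t ∈ J, ∀ x, x ∉ K → f t x = 0)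
    (ha : a ∈ J \ Z) (hb : b ∈ J \ Z) (hab : a ≤ b) (h0 : ∀ t ∈ Icc a b, ∀ x, 0 ≤ ψ t x * f t x) :
    IntervalIntegrable (fun t => ∫ x, (ψ t x * heat w f t x + f t x * adj w ψ t x) ∂(ar (w t)))
      volume a b ∧
    ∫ x, ψ b x * f b x ∂(ar (w b)) - ∫ x, ψ a x * f a x ∂(ar (w a))
      ≤ ∫ t in a..b, ∫ x, (ψ t x * heat w f t x + f t x * adj w ψ t x) ∂(ar (w t)) := by
  obtain ⟨h1, h2⟩ := bk_green_core h hJ hc hJI hψ hf hK hs
  have h3 := brakke h h1 ha hb hab h0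
  have h4 := hc.uIcc_subset ha.1 hb.1
  rw [dfc, intervalIntegral.integral_congr fun t ht => (h2 t (h4 ht)).2] at h3
  exact ⟨(bk_int h h1 ha.1 hb.1).congr fun t ht => (h2 t (h4 (uIoc_subset_uIcc ht))).2,
    by linarith⟩

lemma exists_nu {R : Set ℝ} {φ : ℝ → ℝ} (hφ : MonotoneOn φ R) {e : ℝ}
    (he : ∀ c ∈ R, ∀ d ∈ R, c ≤ d → φ d - φ c ≤ e) : ∃ ν : Measure ℝ,
      ν univ ≤ ENNReal.ofReal e ∧ ∀ c ∈ R, ∀ d ∈ R, ENNReal.ofReal (φ d - φ c) ≤ ν (Icc c d) := by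
  rcases R.eq_empty_or_nonempty with rfl | ⟨c₀, h₀⟩
  · exact ⟨0, by simp, by simp⟩
  have he' : ∀ c ∈ R, ∀ d ∈ R, φ d - φ c ≤ e := fun c hc d hd => by
    rcases le_total c d with h | h
    · exact he c hc d hd h
    · linarith [hφ hd hc h, he c hc c hc le_rfl]
  have hl : BddBelow (φ '' R) := ⟨φ c₀ - e, by
    rintro _ ⟨c, hc, rfl⟩
    linarith [he' c hc c₀ h₀]⟩
  have hu : BddAbove (φ '' R) := ⟨φ c₀ + e, by
    rintro _ ⟨c, hc, rfl⟩
    linarith [he' c₀ h₀ c hc]⟩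
  obtain ⟨g, hg, hg'⟩ := hφ.exists_monotone_extension hl hu
  set m := sInf (φ '' R)
  have h1 : ∀ c ∈ R, m ≤ φ c ∧ φ c ≤ m + e := fun c hc => ⟨csInf_le hl (mem_image_of_mem _ hc),
    sub_le_iff_le_add.1 (le_csInf ⟨_, mem_image_of_mem _ h₀⟩ (by
      rintro _ ⟨d, hd, rfl⟩
      linarith [he' d hd c hc]))⟩
  have h2 : Monotone fun t => max m (min (m + e) (g t)) := fun s t hst =>
    max_le_max le_rfl (min_le_min le_rfl (hg hst))
  have h3 : ∀ c ∈ R, max m (min (m + e) (g c)) = φ c := fun c hc => by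
    rw [← hg' hc, min_eq_right (h1 c hc).2, max_eq_right (h1 c hc).1]
  have h4 : ∀ t, m ≤ h2.stieltjesFunction t ∧ h2.stieltjesFunction t ≤ m + e := fun t =>
    ⟨(le_max_left _ _).trans (h2.le_rightLim le_rfl), (h2.rightLim_le (lt_add_one t)).trans
      (max_le (by linarith [(h1 c₀ h₀).1, (h1 c₀ h₀).2]) (min_le_left _ _))⟩
  refine ⟨h2.stieltjesFunction.measure, ?_, fun c hc d hd => ?_⟩
  · have e1 : (univ : Set ℝ) = ⋃ n : ℕ, Ioc (-(n : ℝ)) n := (eq_univ_of_forall fun t => by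
      obtain ⟨n, hn⟩ := exists_nat_gt |t|
      exact mem_iUnion.2 ⟨n, (abs_lt.1 hn).1, (abs_lt.1 hn).2.le⟩).symm
    rw [e1, Monotone.measure_iUnion fun n k hnk =>
      Ioc_subset_Ioc (neg_le_neg (Nat.cast_le.2 hnk)) (Nat.cast_le.2 hnk)]
    refine iSup_le fun n => ?_
    rw [StieltjesFunction.measure_Ioc]
    exact ENNReal.ofReal_le_ofReal (by linarith [(h4 n).2, (h4 (-n)).1])
  · rw [StieltjesFunction.measure_Icc]
    refine ENNReal.ofReal_le_ofReal (sub_le_sub (h3 d hd ▸ h2.le_rightLim le_rfl) ?_)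
    refine le_of_tendsto (h2.stieltjesFunction.mono.tendsto_leftLim c)
      (eventually_nhdsWithin_of_forall fun s hs => ?_)
    exact h3 c hc ▸ h2.rightLim_le hs

theorem nu (h : IsW0 w I Z A) {χ : E3 → ℝ} (hχ : ContDiff ℝ 1 χ) (hc : HasCompactSupport χ)
    (h0 : ∀ x, 0 ≤ χ x) {e : ℝ} (hab : Icc a b ⊆ I)
    (he : ∀ c ∈ Icc a b \ Z, ∀ d ∈ Icc a b \ Z, c ≤ d → dfc w (fun _ => χ) c d ≤ e) :
    ∃ ν : Measure ℝ, ν univ ≤ ENNReal.ofReal e ∧ ∀ c ∈ Icc a b \ Z, ∀ d ∈ Icc a b \ Z, c ≤ d →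
      ENNReal.ofReal (dfc w (fun _ => χ) c d) ≤ ν (Icc c d) := by
  rcases (Icc a b \ Z).eq_empty_or_nonempty with h1 | ⟨c₀, h₀⟩
  · exact ⟨0, by simp, by simp [h1]⟩
  have hT : Test 1 I I fun _ => χ := Test.static h hχ hc
  have e1 : ∀ c ∈ Icc a b \ Z, ∀ d ∈ Icc a b \ Z, dfc w (fun _ => χ) c d
      = dfc w (fun _ => χ) c₀ d - dfc w (fun _ => χ) c₀ c := fun c hc d hd => by
    rw [← dfc_add h hT (hab h₀.1) (hab hc.1) (hab hd.1), add_sub_cancel_left]
  obtain ⟨ν, h1, h2⟩ := exists_nu (R := Icc a b \ Z) (φ := dfc w (fun _ => χ) c₀) (e := e)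
    (fun c hc d hd hcd => sub_nonneg.1 (e1 c hc d hd ▸ brakke h hT ⟨hab hc.1, hc.2⟩
      ⟨hab hd.1, hd.2⟩ hcd fun _ _ => h0)) fun c hc d hd hcd => e1 c hc d hd ▸ he c hc d hd hcd
  exact ⟨ν, h1, fun c hc d hd _ => e1 c hc d hd ▸ h2 c hc d hd⟩

end Vale.Agent.P218WC
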