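import Vale.Agent.P218WC.Resc
import Vale.Agent.P218UG.Beta

/-! Huisken's monotonicity formula for weak flows. -/

open MeasureTheory Set Filter Topology Metric Module
open scoped ENNReal NNReal RealInnerProductSpace ContDiff

namespace Vale.Agent.P218WC

open Vale.Agent.P218UA Vale.Agent.P218WA Vale.Agent.P218UX
open Vale.Agent.P218.H63 (lap)

variable {w : ℝ → E3 → ℝ} {I Z J : Set ℝ} {A t t₀ t₁ t₂ : ℝ}

lemma integrable_of_supp (h : IsW0 w I Z A) (ht : t ∈ I) {f : E3 → ℝ} (hf : Continuous f)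
    {K : Set E3} (hK : IsCompact K) (hs : ∀ x, x ∉ K → f x = 0) : Integrable f (ar (w t)) := by
  have := locFin (h.slice ht)
  exact hf.integrable_of_hasCompactSupport (HasCompactSupport.intro hK hs)

lemma continuous_dsp (h : IsW0 w I Z A) (x₀ : E3) (t₀ : ℝ) (ht : t ∈ I) :
    Continuous (dsp w x₀ t₀ t) :=
  (((P218UG.surf_lap_cont (h.slice ht)).sub (((continuous_id.sub continuous_const).inner
    (P218UG.surf_grad_diff (h.slice ht)).continuous).div_const _)).pow 2).mul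
    (continuous_Phi x₀ t₀ t)

/-- the product of the backward heat kernel and the cut-off function -/
lemma phi_cut (h : IsW0 w I Z A) (x₀ : E3) (t₀ t₁ : ℝ) {ρ : ℝ} (hρ : 0 < ρ) :
    Test 1 I (I ∩ Ioo (t₁ - 1) t₀) (fun t x => Phi x₀ t₀ t x * cut x₀ 4 t₁ ρ t x) ∧
      ∀ t ∈ I ∩ Ioo (t₁ - 1) t₀, bk w (fun t x => Phi x₀ t₀ t x * cut x₀ 4 t₁ ρ t x) t
        ≤ -∫ y, cut x₀ 4 t₁ ρ t y * dsp w x₀ t₀ t y ∂(ar (w t)) := by
  obtain ⟨h1, h2⟩ := bk_green_core h (h.isOpen.inter isOpen_Ioo) (h.conn.inter ordConnected_Ioo)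
    inter_subset_left (contDiffOn_Phi x₀ t₀ fun _ ht => ht.2.2)
    (contDiff_cut x₀ 4 t₁ ρ).contDiffOn (isCompact_closedBall x₀ (ρ + 4 + 1))
    (Or.inr fun t ht x hx => cut_supp hρ (by norm_num) ht.2.1 hx)
  refine ⟨h1, fun t ht => ?_⟩
  rw [(h2 t ht).2, ← integral_neg]
  refine integral_mono_ae (h2 t ht).1 (integrable_of_supp h ht.1
    ((continuous_cut x₀ 4 t₁ ρ t).mul (continuous_dsp h x₀ t₀ ht.1))
    (isCompact_closedBall x₀ (ρ + 4 + 1)) fun x hx => by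
      rw [Pi.mul_apply, cut_supp hρ (by norm_num) ht.2.1 hx, zero_mul]).neg ?_
  filter_upwards [ae_ar (h.slice ht.1).smooth.continuous] with y hy
  have hn := P218UG.surf_unit (h.slice ht.1) hy
  have e1 := heat_cut w x₀ 4 t₁ hρ t hn
  rw [sub_self, mul_zero, zero_div, zero_mul] at e1
  rw [adj_Phi w x₀ ht.2.2 hn]
  nlinarith [mul_nonneg (Phi_pos x₀ ht.2.2 y).le (neg_nonneg.2 e1)]

lemma ofReal_cut (h : IsW0 w I Z A) (ht : t ∈ I) (x₀ : E3) {a ρ : ℝ} (hρ : 0 < ρ)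
    (ha : 0 ≤ a) (h1 : t₁ - 1 < t) {f : E3 → ℝ} (hf : Continuous f) (h0 : ∀ y, 0 ≤ f y) :
    ENNReal.ofReal (∫ y, cut x₀ a t₁ ρ t y * f y ∂(ar (w t)))
      = ∫⁻ y, ENNReal.ofReal (cut x₀ a t₁ ρ t y * f y) ∂(ar (w t)) :=
  ofReal_integral_eq_lintegral_ofReal (integrable_of_supp h ht ((continuous_cut _ _ _ _ _).mul hf)
    (isCompact_closedBall x₀ (ρ + a + 1)) fun x hx => by
      rw [cut_supp hρ ha h1 hx, zero_mul])
    (Eventually.of_forall fun y => mul_nonneg (cut_nonneg _ _ _ _ _ _) (h0 y))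

lemma continuousOn_dsp (h : IsW0 w I Z A) (x₀ : E3) (t₀ : ℝ) (hJI : J ⊆ I \ Z)
    (hJ : J ⊆ Iio t₀) : ContinuousOn (fun p : ℝ × E3 => dsp w x₀ t₀ p.1 p.2) (J ×ˢ univ) := by
  have hs : J ×ˢ (univ : Set E3) ⊆ (I \ Z) ×ˢ univ := prod_mono hJI subset_rfl
  refine ((((continuousOn_lap h).mono hs).sub (ContinuousOn.div (ContinuousOn.inner (by fun_prop)
    ((continuousOn_grad h).mono hs)) (by fun_prop) fun p hp => ?_)).pow 2).mul
    (contDiffOn_Phi x₀ t₀ hJ (n := 0)).continuousOn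
  have := sub_pos.2 (show p.1 < t₀ from hJ hp.1)
  positivity

lemma lint_le_of_le {f g : ℝ → ℝ} {a b : ℝ} (hab : a ≤ b) (hg : IntervalIntegrable g volume a b)
    (h0 : ∀ t ∈ Icc a b, 0 ≤ f t) (h : ∀ t ∈ Icc a b, f t ≤ g t) :
    0 ≤ ∫ t in a..b, g t ∧
      ∫⁻ t in Ioo a b, ENNReal.ofReal (f t) ≤ ENNReal.ofReal (∫ t in a..b, g t) := by
  refine ⟨intervalIntegral.integral_nonneg hab fun t ht => (h0 t ht).trans (h t ht), ?_⟩
  rw [intervalIntegral.integral_of_le hab, integral_Ioc_eq_integral_Ioo,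
    ofReal_integral_eq_lintegral_ofReal (hg.1.mono_set Ioo_subset_Ioc_self)
      ((ae_restrict_mem measurableSet_Ioo).mono fun t ht =>
        (h0 t (Ioo_subset_Icc_self ht)).trans (h t (Ioo_subset_Icc_self ht)))]
  exact setLIntegral_mono' measurableSet_Ioo fun t ht =>
    ENNReal.ofReal_le_ofReal (h t (Ioo_subset_Icc_self ht))

theorem mono (h : IsW0 w I Z A) (x₀ : E3) (h1 : t₁ ∈ I \ Z) (h2 : t₂ ∈ I \ Z) (h12 : t₁ ≤ t₂)
    (h20 : t₂ < t₀) :
    ENNReal.ofReal (gd (ar (w t₂)) x₀ √(t₀ - t₂)) + ∫⁻ t in Ioo t₁ t₂, dis w x₀ t₀ t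
      ≤ ENNReal.ofReal (gd (ar (w t₁)) x₀ √(t₀ - t₁)) := by
  have hA := zero_le_one.trans h.one_le
  have h10 := h12.trans_lt h20
  rw [gd_eq_lint hA (h.ratio t₂ h2.1) x₀ h20, gd_eq_lint hA (h.ratio t₁ h1.1) x₀ h10]
  have hs : Icc t₁ t₂ ⊆ I ∩ Ioo (t₁ - 1) t₀ := fun t ht =>
    ⟨h.conn.out h1.1 h2.1 ht, by linarith [ht.1], ht.2.trans_lt h20⟩
  have hρ : ∀ n : ℕ, (0 : ℝ) < n + 1 := fun n => by positivity
  have hO : IsOpen (Ioo t₁ t₂ \ Z) := isOpen_Ioo.sdiff h.closed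
  have hO1 : Ioo t₁ t₂ \ Z ⊆ I \ Z := fun t ht => ⟨(hs (Ioo_subset_Icc_self ht.1)).1, ht.2⟩
  have hG : ∀ n : ℕ, AEMeasurable (fun t => ∫ y, cut x₀ 4 t₁ (n + 1) t y * dsp w x₀ t₀ t y
      ∂(ar (w t))) (volume.restrict (Ioo t₁ t₂)) := fun n => by
    rw [← Measure.restrict_congr_set (sdiff_null_ae_eq_self h.null)]
    exact (continuousOn_integral h hO hO1 ((contDiff_cut x₀ 4 t₁ _).continuous.continuousOn.mul
      (continuousOn_dsp h x₀ t₀ hO1 fun _ ht => ht.1.2.trans h20))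
      (isCompact_closedBall x₀ (n + 1 + 4 + 1)) fun t ht x hx => by
        rw [cut_supp (hρ n) (by norm_num) (by linarith [ht.1.1]) hx, zero_mul]).aemeasurable
          hO.measurableSet
  have hE : ∀ (n : ℕ), ∀ t ∈ Icc t₁ t₂,
      ENNReal.ofReal (∫ y, cut x₀ 4 t₁ (n + 1) t y * dsp w x₀ t₀ t y ∂(ar (w t)))
      = ∫⁻ y, ENNReal.ofReal (cut x₀ 4 t₁ (n + 1) t y * dsp w x₀ t₀ t y) ∂(ar (w t)) :=
    fun n t ht => ofReal_cut h (hs ht).1 x₀ (hρ n) (by norm_num) (hs ht).2.1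
      (continuous_dsp h x₀ t₀ (hs ht).1) (dsp_nonneg w x₀ (hs ht).2.2)
  have l1 := lint_cut_tendsto (μ := ar (w t₂)) x₀ h12 (continuous_Phi x₀ t₀ t₂)
    fun y => (Phi_pos x₀ h20 y).le
  have l2 : Tendsto (fun n : ℕ => ∫⁻ t in Ioo t₁ t₂, ENNReal.ofReal
      (∫ y, cut x₀ 4 t₁ (n + 1) t y * dsp w x₀ t₀ t y ∂(ar (w t)))) atTop
      (𝓝 (∫⁻ t in Ioo t₁ t₂, dis w x₀ t₀ t)) := by
    refine lintegral_tendsto_of_tendsto_of_monotone (fun n => (hG n).ennreal_ofReal) ?_ ?_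
    · filter_upwards [ae_restrict_mem measurableSet_Ioo] with t ht a b hab
      have ht' := Ioo_subset_Icc_self ht
      simp only [hE _ t ht']
      exact lintegral_mono fun y => ENNReal.ofReal_le_ofReal (mul_le_mul_of_nonneg_right
        (cut_mono x₀ (by norm_num) ht'.1 y hab) (dsp_nonneg w x₀ (hs ht').2.2 y))
    · filter_upwards [ae_restrict_mem measurableSet_Ioo] with t ht
      have ht' := Ioo_subset_Icc_self ht
      simp only [hE _ t ht']
      have e := lint_cut_tendsto (μ := ar (w t)) x₀ ht'.1 (continuous_dsp h x₀ t₀ (hs ht').1)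
        (dsp_nonneg w x₀ (hs ht').2.2)
      simpa only [dis, dsp, Phi, mul_div_assoc] using e
  refine le_of_tendsto' (l1.add l2) fun n => ?_
  obtain ⟨e1, e2⟩ := phi_cut h x₀ t₀ t₁ (hρ n)
  have a1 := hs (left_mem_Icc.2 h12)
  have a2 := hs (right_mem_Icc.2 h12)
  have e := brakke h e1 ⟨a1, h1.2⟩ ⟨a2, h2.2⟩ h12 fun t ht x =>
    mul_nonneg (Phi_pos x₀ (hs ht).2.2 x).le (cut_nonneg _ _ _ _ _ _)
  obtain ⟨e3, e4⟩ := lint_le_of_le h12 (bk_int h e1 a1 a2).neg (fun t ht => integral_nonneg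
    fun y => mul_nonneg (cut_nonneg _ _ _ _ _ _) (dsp_nonneg w x₀ (hs ht).2.2 y))
    fun t ht => le_neg.1 (e2 t (hs ht))
  simp only [Pi.neg_apply, intervalIntegral.integral_neg] at e3 e4
  rw [dfc] at e
  simp only [mul_comm (Phi _ _ t₁ _), mul_comm (Phi _ _ t₂ _)] at e
  refine (add_le_add_right e4 _).trans ?_
  rw [← ofReal_cut h h2.1 x₀ (hρ n) (by norm_num) (by linarith) (continuous_Phi x₀ t₀ t₂)
      fun y => (Phi_pos x₀ h20 y).le, ← ENNReal.ofReal_add (integral_nonneg fun y =>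
        mul_nonneg (cut_nonneg _ _ _ _ _ _) (Phi_pos x₀ h20 y).le) e3]
  refine (ENNReal.ofReal_le_ofReal (show _ ≤ ∫ y, cut x₀ 4 t₁ (n + 1) t₁ y * Phi x₀ t₀ t₁ y
    ∂(ar (w t₁)) by linarith)).trans ?_
  rw [ofReal_cut h h1.1 x₀ (hρ n) (by norm_num) (by linarith) (continuous_Phi x₀ t₀ t₁)
      fun y => (Phi_pos x₀ h10 y).le]
  exact lintegral_mono fun y => ENNReal.ofReal_le_ofReal (mul_le_of_le_one_left
    (Phi_pos x₀ h10 y).le (cut_le_one x₀ (by norm_num) le_rfl _ y))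

lemma gd_nonneg (μ : Measure E3) (x : E3) (r : ℝ) : 0 ≤ gd μ x r :=
  div_nonneg (integral_nonneg fun _ => (Real.exp_pos _).le) (by positivity)

/-- the Gaussian density ratio is decreasing -/
theorem gd_anti (h : IsW0 w I Z A) (x₀ : E3) (h1 : t₁ ∈ I \ Z) (h2 : t₂ ∈ I) (h12 : t₁ ≤ t₂)
    (h20 : t₂ < t₀) : gd (ar (w t₂)) x₀ √(t₀ - t₂) ≤ gd (ar (w t₁)) x₀ √(t₀ - t₁) := by
  by_cases hZ : t₂ ∈ Z
  · rw [h.ar_sing hZ]
    exact le_of_eq_of_le (by simp [gd]) (gd_nonneg _ _ _)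
  · exact (ENNReal.ofReal_le_ofReal_iff (gd_nonneg _ _ _)).1
      (le_self_add.trans (mono h x₀ h1 ⟨h2, hZ⟩ h12 h20))

lemma int_cut_tendsto (h : IsW0 w I Z A) (x₀ : E3) (ht : t ∈ I) (h1 : t₁ ≤ t) (h0 : t < t₀) :
    Tendsto (fun n : ℕ => ∫ y, Phi x₀ t₀ t y * cut x₀ 4 t₁ (n + 1) t y ∂(ar (w t))) atTop
      (𝓝 (gd (ar (w t)) x₀ √(t₀ - t))) := by
  rw [gd_eq_integral _ x₀ h0]
  refine tendsto_integral_of_dominated_convergence _ (fun n => ((continuous_Phi _ _ _).mul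
    (continuous_cut _ _ _ _ _)).aestronglyMeasurable)
    (integrable_Phi (zero_le_one.trans h.one_le) (h.ratio t ht) x₀ h0)
    (fun n => Eventually.of_forall fun y => ?_) (Eventually.of_forall fun y => ?_)
  · rw [Real.norm_eq_abs, abs_of_nonneg (mul_nonneg (Phi_pos x₀ h0 y).le (cut_nonneg _ _ _ _ _ _))]
    exact mul_le_of_le_one_right (Phi_pos x₀ h0 y).le (cut_le_one x₀ (by norm_num) h1 _ y)
  · simpa using (cut_tendsto x₀ 4 t₁ t y).const_mul (Phi x₀ t₀ t y)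

theorem dfc_le_drop (h : IsW0 w I Z A) (x₀ : E3) {M : ℝ} {χ : ℝ → E3 → ℝ} (hχ : Test 1 I J χ)
    (h1 : t₁ ∈ J \ Z) (h2 : t₂ ∈ J \ Z) (h12 : t₁ ≤ t₂) (h20 : t₂ < t₀)
    (hM : ∀ t ∈ Icc t₁ t₂, ∀ x, |χ t x| ≤ M * Phi x₀ t₀ t x) :
    |dfc w χ t₁ t₂| ≤ M * (gd (ar (w t₁)) x₀ √(t₀ - t₁) - gd (ar (w t₂)) x₀ √(t₀ - t₂)) := by
  have h10 := h12.trans_lt h20
  have hM0 : 0 ≤ M := nonneg_of_mul_nonneg_left ((abs_nonneg _).trans
    (hM t₁ (left_mem_Icc.2 h12) 0)) (Phi_pos x₀ h10 0)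
  obtain ⟨K, k1, k2⟩ := hχ.supp
  obtain ⟨R, hR0, hR⟩ := k1.isBounded.subset_closedBall_lt 0 x₀
  have hJ := hχ.conn.out h1.1 h2.1
  have hs : Icc t₁ t₂ ⊆ J ∩ Ioo (t₁ - 1) t₀ := fun t ht =>
    ⟨hJ ht, by linarith [ht.1], ht.2.trans_lt h20⟩
  have a1 := hs (left_mem_Icc.2 h12)
  have a2 := hs (right_mem_Icc.2 h12)
  have hO : IsOpen (J ∩ Ioo (t₁ - 1) t₀) := hχ.isOpen.inter isOpen_Ioo
  have hc : (J ∩ Ioo (t₁ - 1) t₀).OrdConnected := hχ.conn.inter ordConnected_Ioo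
  have l0 : Tendsto (fun n : ℕ => max (1 - (R ^ 2 + 4 * (t₂ - t₁)) / ((n : ℝ) + 1) ^ 2) 0 ^ 3)
      atTop (𝓝 1) := by
    have e1 : Tendsto (fun n : ℕ => ((n : ℝ) + 1) ^ 2) atTop atTop := (tendsto_pow_atTop
      two_ne_zero).comp (tendsto_natCast_atTop_atTop.atTop_add tendsto_const_nhds)
    simpa using (((tendsto_const_nhds (x := R ^ 2 + 4 * (t₂ - t₁))).div_atTop e1).const_sub
      1).max (tendsto_const_nhds (x := (0 : ℝ))) |>.pow 3
  have l1 := l0.mul_const |dfc w χ t₁ t₂|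
  rw [one_mul] at l1
  refine le_of_tendsto_of_tendsto' l1 (((int_cut_tendsto h x₀ (hχ.sub h1.1) le_rfl h10).sub
    (int_cut_tendsto h x₀ (hχ.sub h2.1) h12 h20)).const_mul M) fun n => ?_
  obtain ⟨e1, e2⟩ := phi_cut h x₀ t₀ t₁ (show (0 : ℝ) < n + 1 by positivity)
  have hs' : J ∩ Ioo (t₁ - 1) t₀ ⊆ I ∩ Ioo (t₁ - 1) t₀ := inter_subset_inter_left _ hχ.sub
  have e3 := e1.mono hO hc hs'
  have e4 := hχ.mono hO hc inter_subset_left
  set c := max (1 - (R ^ 2 + 4 * (t₂ - t₁)) / ((n : ℝ) + 1) ^ 2) 0 ^ 3 with hcd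
  have hc0 : 0 ≤ c := by positivity
  have e5 := dfc_le h (e4.lin e4 c 0) (e3.lin e3 M 0) ⟨a1, h1.2⟩ ⟨a2, h2.2⟩ h12 fun t ht x => by
    have p1 := (Phi_pos x₀ (hs ht).2.2 x).le
    rw [zero_mul, zero_mul, add_zero, add_zero]
    by_cases hx : x ∈ K
    · have p2 : c ≤ cut x₀ 4 t₁ (n + 1) t x := by
        refine pow_le_pow_left₀ (le_max_right _ _) (max_le_max ?_ le_rfl) 3
        have p3 : ‖x - x₀‖ ≤ R := mem_closedBall_iff_norm.1 (hR hx)
        gcongr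
        exact ht.2
      rw [abs_mul, abs_of_nonneg hc0, ← mul_assoc, mul_comm]
      exact mul_le_mul (hM t ht x) p2 hc0 (mul_nonneg hM0 p1)
    · rw [k2 t (hJ ht) x hx, mul_zero, abs_zero]
      exact mul_nonneg hM0 (mul_nonneg p1 (cut_nonneg _ _ _ _ _ _))
  rw [dfc_lin h e4 e4 a1 a2, dfc_lin h e3 e3 a1 a2, zero_mul, zero_mul, add_zero, add_zero, abs_mul,
    abs_of_nonneg hc0] at e5
  refine e5.trans (mul_le_mul_of_nonneg_left ?_ hM0)
  refine add_le_of_nonpos_right ?_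
  rw [← neg_nonneg, ← intervalIntegral.integral_neg]
  exact intervalIntegral.integral_nonneg h12 fun t ht => le_trans (integral_nonneg fun y =>
    mul_nonneg (cut_nonneg _ _ _ _ _ _) (dsp_nonneg w x₀ (hs ht).2.2 y))
      (le_neg.1 (e2 t (hs' (hs ht))))

theorem clear (h : IsW0 w I Z A) (ht : t₀ ∈ I) {x₀ : E3} (hx : w t₀ x₀ = 0) (h1 : t₁ ∈ I \ Z)
    (h10 : t₁ < t₀) : 1 ≤ gd (ar (w t₁)) x₀ √(t₀ - t₁) := by
  obtain ⟨a, b, e1, e2, e3⟩ := h.loc ⟨ht, h.notMem hx⟩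
  obtain ⟨s, s1, s2⟩ := exists_between (max_lt e1.1 h10)
  have s3 : s ∈ Ioo a b := ⟨(le_max_left _ _).trans_lt s1, s2.trans e1.2⟩
  exact (P218UX.clear e3 e1 hx s3 s2).trans
    (gd_anti h x₀ h1 (e2 s3).1 ((le_max_right _ _).trans s1.le) s2)

/-- the time derivative of the integral of a cut-off function -/
lemma bk_cut (h : IsW0 w I Z A) (z : E3) {r : ℝ} (hr : 0 < r) :
    Test 1 I I (fun _ x => 1 * cut z 0 0 (2 * r) 0 x) ∧ ∀ t ∈ I,
      bk w (fun _ x => 1 * cut z 0 0 (2 * r) 0 x) t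
        ≤ 12 * A - 1 / 3 * ∫ x in ball z r, lap (w t) x ^ 2 ∂(ar (w t)) := by
  have hA := zero_le_one.trans h.one_le
  have hρ : 0 < 2 * r := by positivity
  have e0 : (fun (_ : ℝ) x => 1 * cut z 0 0 (2 * r) 0 x)
      = fun t x => 1 * cut z 0 0 (2 * r) t x := by simp [cut]
  have hz : ∀ t x, x ∉ closedBall z (2 * r) →
      max (1 - (‖x - z‖ ^ 2 + 0 * (t - 0)) / (2 * r) ^ 2) 0 = 0 := fun t x hx => by
    rw [mem_closedBall, dist_eq_norm, not_le] at hx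
    refine max_eq_right (sub_nonpos.2 ((one_le_div (by positivity)).2 ?_))
    rw [zero_mul, add_zero]
    exact pow_le_pow_left₀ hρ.le hx.le 2
  have hz' : ∀ t x, x ∉ closedBall z (2 * r) → cut z 0 0 (2 * r) t x = 0 := fun t x hx => by
    rw [cut, hz t x hx]; norm_num
  have hK := isCompact_closedBall z (2 * r)
  obtain ⟨h1, hg⟩ := bk_green_core h h.isOpen h.conn subset_rfl (ψ := fun _ _ => 1)
    contDiffOn_const (contDiff_cut z 0 0 (2 * r)).contDiffOn hK (Or.inr fun t _ => hz' t)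
  rw [e0]
  refine ⟨h1, fun t ht => ?_⟩
  have hi : Integrable (fun x => cut z 0 0 (2 * r) t x * lap (w t) x ^ 2) (ar (w t)) :=
    integrable_of_supp h ht ((continuous_cut _ _ _ _ _).mul
      ((P218UG.surf_lap_cont (h.slice ht)).pow 2)) hK fun x hx => by rw [hz' t x hx, zero_mul]
  have e1 : ∀ x, 1 * heat w (cut z 0 0 (2 * r)) t x + cut z 0 0 (2 * r) t x
      * adj w (fun _ _ => 1) t x
      = heat w (cut z 0 0 (2 * r)) t x - cut z 0 0 (2 * r) t x * lap (w t) x ^ 2 := fun x => by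
    have e2 : gradient (fun _ : E3 => (1 : ℝ)) = fun _ => 0 := by ext; simp
    simp only [adj, P218UA.hs, e2, fderiv_fun_const, Pi.zero_apply, trT_zero, deriv_const',
      inner_zero_left]
    ring
  have i1 := (hg t ht).1
  rw [(hg t ht).2]
  simp only [e1] at i1 ⊢
  have i2 : Integrable (heat w (cut z 0 0 (2 * r)) t) (ar (w t)) :=
    (i1.add hi).congr (Eventually.of_forall fun x => by simp)
  rw [integral_sub i2 hi]
  refine sub_le_sub ((integral_le_ball hA (h.ratio t ht) i2 (z := z) (M := 3 / r ^ 2) hρ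
    (by positivity) ?_).trans_eq (by field_simp; ring)) ?_
  · filter_upwards [ae_ar (h.slice ht).smooth.continuous] with y hy
    refine (heat_cut w z 0 0 hρ t (P218UG.surf_unit (h.slice ht) hy)).trans ?_
    by_cases hx : y ∈ closedBall z (2 * r)
    · rw [indicator_of_mem hx]
      have p1 : max (1 - (‖y - z‖ ^ 2 + 0 * (t - 0)) / (2 * r) ^ 2) 0 ^ 2 ≤ 1 := by
        refine pow_le_one₀ (le_max_right _ _) (max_le (sub_le_self _ ?_) zero_le_one)
        rw [zero_mul, add_zero]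
        positivity
      exact (mul_le_of_le_one_right (by positivity) p1).trans_eq (by field_simp; ring)
    · rw [indicator_of_notMem hx, hz t y hx]
      simp
  · rw [← integral_indicator measurableSet_ball, ← integral_const_mul]
    refine integral_mono_of_nonneg (Eventually.of_forall fun x => mul_nonneg (by norm_num)
      (indicator_nonneg (fun _ _ => sq_nonneg _) x)) hi (Eventually.of_forall fun x => ?_)
    have h0 := cut_nonneg z 0 0 (2 * r) t x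
    by_cases hx : x ∈ ball z r
    · have h3 : (3 / 4 : ℝ) ^ 3 ≤ cut z 0 0 (2 * r) t x := by
        refine pow_le_pow_left₀ (by norm_num) (le_max_of_le_left ?_) 3
        rw [mem_ball, dist_eq_norm] at hx
        have h4 : (‖x - z‖ ^ 2 + 0 * (t - 0)) / (2 * r) ^ 2 ≤ 1 / 4 := by
          rw [div_le_iff₀ (by positivity)]
          nlinarith [norm_nonneg (x - z)]
        linarith
      simp only [indicator_of_mem hx]
      nlinarith [sq_nonneg (lap (w t) x)]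
    · simp only [indicator_of_notMem hx, mul_zero]
      positivity

lemma ofReal_hsq (h : IsW0 w I Z A) (z : E3) (r : ℝ) (ht : t ∈ I) :
    ENNReal.ofReal (∫ x in ball z r, lap (w t) x ^ 2 ∂(ar (w t)))
      = ∫⁻ x in ball z r, ENNReal.ofReal (lap (w t) x ^ 2) ∂(ar (w t)) := by
  have := locFin (h.slice ht)
  exact ofReal_integral_eq_lintegral_ofReal
    ((((P218UG.surf_lap_cont (h.slice ht)).pow 2).continuousOn.integrableOn_compact
      (isCompact_closedBall z r)).mono_set ball_subset_closedBall)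
    (Eventually.of_forall fun _ => sq_nonneg _)

lemma hsq_reg (h : IsW0 w I Z A) (z : E3) {r : ℝ} (hr : 0 < r) (h1 : t₁ ∈ I \ Z)
    (h2 : t₂ ∈ I \ Z) (h12 : t₁ ≤ t₂) :
    ∫⁻ t in Ioo t₁ t₂, ∫⁻ x in ball z r, ENNReal.ofReal (lap (w t) x ^ 2) ∂(ar (w t))
      ≤ ENNReal.ofReal (36 * A * (r ^ 2 + (t₂ - t₁))) := by
  have hA := zero_le_one.trans h.one_le
  obtain ⟨e1, e2⟩ := bk_cut h z hr
  have hs := h.conn.out h1.1 h2.1
  have e := brakke h e1 h1 h2 h12 fun _ _ _ => mul_nonneg zero_le_one (cut_nonneg _ _ _ _ _ _)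
  have i1 := bk_int h e1 h1.1 h2.1
  have e4 := (lint_le_of_le (f := fun t => ∫ x in ball z r, lap (w t) x ^ 2 ∂(ar (w t))) h12
    (((intervalIntegrable_const (c := 12 * A)).sub i1).const_mul 3)
    (fun t _ => integral_nonneg fun _ => sq_nonneg _) fun t ht => by linarith [e2 t (hs ht)]).2
  rw [setLIntegral_congr_fun measurableSet_Ioo fun t ht =>
    ofReal_hsq h z r (hs (Ioo_subset_Icc_self ht)), intervalIntegral.integral_const_mul,
    intervalIntegral.integral_sub intervalIntegrable_const i1, intervalIntegral.integral_const,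
    smul_eq_mul] at e4
  refine e4.trans (ENNReal.ofReal_le_ofReal ?_)
  have e5 : 0 ≤ ∫ x, 1 * cut z 0 0 (2 * r) 0 x ∂(ar (w t₂)) :=
    integral_nonneg fun x => mul_nonneg zero_le_one (cut_nonneg _ _ _ _ _ _)
  have e6 : ∫ x, 1 * cut z 0 0 (2 * r) 0 x ∂(ar (w t₁)) ≤ 1 * (A * (2 * r) ^ 2) := by
    refine integral_le_ball hA (h.ratio t₁ h1.1) (e1.integrable h h1.1) (z := z) (by positivity)
      zero_le_one (Eventually.of_forall fun x => ?_)
    rw [one_mul]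
    by_cases hx : x ∈ closedBall z (2 * r)
    · rw [indicator_of_mem hx]; exact cut_le_one z le_rfl le_rfl _ x
    · rw [indicator_of_notMem hx]
      rw [mem_closedBall, dist_eq_norm, not_le] at hx
      refine (cut_eq_zero (by positivity) ?_).le
      rw [zero_mul, add_zero]
      exact pow_le_pow_left₀ (by positivity) hx.le 2
  rw [dfc] at e
  nlinarith [sq_nonneg r]

theorem hsq (h : IsW0 w I Z A) (z : E3) {r : ℝ} (hr : 0 < r) (h1 : t₁ ∈ I) (h2 : t₂ ∈ I)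
    (h12 : t₁ ≤ t₂) :
    (∫⁻ t in Icc t₁ t₂, ∫⁻ x in ball z r, ENNReal.ofReal (lap (w t) x ^ 2) ∂(ar (w t))
        ≤ ENNReal.ofReal (36 * A * (r ^ 2 + (t₂ - t₁)))) ∧
      IntervalIntegrable (fun t => ∫ x in ball z r, lap (w t) x ^ 2 ∂(ar (w t))) volume t₁ t₂ ∧
      ∫ t in t₁..t₂, ∫ x in ball z r, lap (w t) x ^ 2 ∂(ar (w t))
        ≤ 36 * A * (r ^ 2 + (t₂ - t₁)) := by
  have hA := zero_le_one.trans h.one_le
  have hs := h.conn.out h1 h2
  have k1 : ∫⁻ t in Icc t₁ t₂, ∫⁻ x in ball z r, ENNReal.ofReal (lap (w t) x ^ 2) ∂(ar (w t))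
      ≤ ENNReal.ofReal (36 * A * (r ^ 2 + (t₂ - t₁))) := by
    have l : Tendsto (fun ε : ℝ => ENNReal.ofReal (36 * A * (r ^ 2 + (t₂ + ε - (t₁ - ε)))))
        (𝓝[>] 0) (𝓝 (ENNReal.ofReal (36 * A * (r ^ 2 + (t₂ - t₁))))) := ENNReal.tendsto_ofReal
      ((Continuous.tendsto' (by fun_prop) _ _ (by simp)).mono_left nhdsWithin_le_nhds)
    refine ge_of_tendsto l (eventually_nhdsWithin_of_forall fun ε (hε : 0 < ε) => ?_)
    obtain ⟨a, a1, a2⟩ := exists_Ioc_subset_of_mem_nhds (h.isOpen.mem_nhds h1)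
      ⟨t₁ - 1, by linarith⟩
    obtain ⟨b, b1, b2⟩ := exists_Ico_subset_of_mem_nhds (h.isOpen.mem_nhds h2)
      ⟨t₂ + 1, by linarith⟩
    obtain ⟨c, c1, c2⟩ := exists_notMem h.null (max_lt a1 (sub_lt_self t₁ hε))
    obtain ⟨d, d1, d2⟩ := exists_notMem h.null (lt_min b1 (lt_add_of_pos_right t₂ hε))
    have c3 := max_lt_iff.1 c1.1
    have d3 := lt_min_iff.1 d1.2
    refine (lintegral_mono_set (Icc_subset_Ioo c1.2 d1.1)).trans ((hsq_reg h z hr
      ⟨a2 ⟨c3.1, c1.2.le⟩, c2⟩ ⟨b2 ⟨d1.1.le, d3.1⟩, d2⟩ (by linarith [c1.2, d1.1])).trans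
      (ENNReal.ofReal_le_ofReal (mul_le_mul_of_nonneg_left (by linarith) (by positivity))))
  have hS : IsCompact (Icc t₁ t₂ ×ˢ closedBall z r) := isCompact_Icc.prod (isCompact_closedBall z r)
  have hm : MeasurableSet (Icc t₁ t₂ ×ˢ ball z r) := measurableSet_Icc.prod measurableSet_ball
  have k2 : IntegrableOn (fun t => ∫ x in ball z r, lap (w t) x ^ 2 ∂(ar (w t))) (Icc t₁ t₂) := by
    refine ((stm_int h ((integrable_indicator_iff hm).2 ((lap_int h hS (prod_mono hs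
      (subset_univ _))).mono_set (prod_mono_right ball_subset_closedBall)))).1.mono_set hs).congr_fun
      (fun t ht => ?_) measurableSet_Icc
    rw [← integral_indicator measurableSet_ball]
    refine integral_congr_ae (Eventually.of_forall fun x => ?_)
    by_cases hx : x ∈ ball z r
    · exact (indicator_of_mem (show (t, x) ∈ Icc t₁ t₂ ×ˢ ball z r from ⟨ht, hx⟩) _).trans
        (indicator_of_mem hx fun x => lap (w t) x ^ 2).symm
    · exact (indicator_of_notMem (fun h' => hx h'.2) _).trans (indicator_of_notMem hx _).symm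
  refine ⟨k1, (intervalIntegrable_iff_integrableOn_Icc_of_le h12).2 k2, ?_⟩
  rw [intervalIntegral.integral_of_le h12, ← integral_Icc_eq_integral_Ioc,
    ← ENNReal.ofReal_le_ofReal_iff (by have := sub_nonneg.2 h12; positivity),
    ofReal_integral_eq_lintegral_ofReal k2
      (Eventually.of_forall fun t => integral_nonneg fun _ => sq_nonneg _),
    setLIntegral_congr_fun measurableSet_Icc fun t ht => ofReal_hsq h z r (hs ht)]
  exact k1

lemma test_kk (h : IsW0 w I Z A) (x : E3) {r : ℝ} (hr : 0 < r) :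
    Test 1 I I fun _ y => kk (r⁻¹ • (y - x)) :=
  Test.static h (P218UG.contDiff_kk_scale x r) (HasCompactSupport.intro
    (isCompact_closedBall x r) fun _ hy => P218UM.kk_scale_zero hr
      (not_le.1 (mem_closedBall_iff_norm.not.1 hy)).le)

theorem mk_anti (h : IsW0 w I Z A) (x : E3) {r : ℝ} (hr : 0 < r) (h1 : t₁ ∈ I \ Z) (h2 : t₂ ∈ I)
    (h12 : t₁ ≤ t₂) : mk (ar (w t₂)) x r ≤ mk (ar (w t₁)) x r + 3 * A / r ^ 2 * (t₂ - t₁) := by
  have hA := zero_le_one.trans h.one_le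
  have h3 := sub_nonneg.2 h12
  by_cases hZ : t₂ ∈ Z
  · rw [h.ar_sing hZ]
    exact le_of_eq_of_le (by simp [P218UA.mk])
      (add_nonneg (P218UM.mk_nonneg _ _ _) (by positivity))
  have hT := test_kk h x hr
  have e := brakke h hT h1 ⟨h2, hZ⟩ h12 fun _ _ _ => P218UM.kk_nonneg _
  have e1 := intervalIntegral.integral_mono_on h12 (bk_int h hT h1.1 h2)
    (intervalIntegrable_const (c := 3 * A)) fun t ht => by
      by_cases hZ : t ∈ Z
      · rw [bk, h.ar_sing hZ, integral_zero_measure]; positivity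
      have ht' : t ∈ I \ Z := ⟨h.conn.out h1.1 h2 ht, hZ⟩
      obtain ⟨a, b, e1, -, e3⟩ := h.loc ht'
      obtain ⟨D, d1, d2⟩ := P218UG.hasDerivAt_mk calcThm e3 x hr e1
      rw [d2.unique ((ddt h hT ht').2.div_const (r ^ 2))] at d1
      exact (div_le_div_iff_of_pos_right (by positivity)).1 d1
  rw [intervalIntegral.integral_const, smul_eq_mul] at e1
  rw [dfc] at e
  rw [P218UA.mk, P218UA.mk, div_mul_eq_mul_div, ← add_div]
  exact div_le_div_of_nonneg_right (by linarith) (by positivity)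

theorem monoW : MonoW where
  mono _ _ _ _ h x₀ _ _ h1 _ h2 h12 h20 := mono h x₀ h1 h2 h12 h20
  dfc_le _ _ _ _ h x₀ _ _ _ _ hχ _ h1 _ h2 h12 h20 hM := dfc_le_drop h x₀ hχ h1 h2 h12 h20 hM
  clear _ _ _ _ h _ ht _ hx _ h1 h10 := clear h ht hx h1 h10
  hsq := ⟨36, by norm_num, fun _ _ _ _ h z _ hr _ h1 _ h2 h12 => hsq h z hr h1 h2 h12⟩
  mk_anti _ _ _ _ h x _ hr _ h1 _ h2 h12 := mk_anti h x hr h1 h2 h12

end Vale.Agent.P218WC
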