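import Vale.Agent.P218WC.Dfc
import Vale.Agent.P218UU.Resc

/-! Rescalings of weak flows, and the proof of `CalcW`. -/

open MeasureTheory Set Filter Topology Metric Module
open scoped ENNReal NNReal RealInnerProductSpace ContDiff

namespace Vale.Agent.P218WC

open Vale.Agent.P218UA Vale.Agent.P218WA Vale.Agent.P218UW
open Vale.Agent.P218.H63 (lap)

variable {w f : ℝ → E3 → ℝ} {I Z : Set ℝ} {A C σ t₁ : ℝ} {x₁ : E3}

lemma pre_conn (h : I.OrdConnected) (t₁ σ : ℝ) : (pre t₁ σ I).OrdConnected :=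
  h.preimage_mono fun a b hab => by gcongr

lemma map_time (hσ : 0 < σ) (t₁ : ℝ) : (volume : Measure ℝ).map (fun t => t₁ + σ ^ 2 * t)
    = ENNReal.ofReal (σ ^ 2)⁻¹ • volume := by
  have h1 : σ ^ 2 ≠ 0 := by positivity
  have e : (fun t => t₁ + σ ^ 2 * t) = (fun t => t₁ + t) ∘ fun t => σ ^ 2 * t := rfl
  rw [e, ← Measure.map_map (by fun_prop) (by fun_prop), Real.map_volume_mul_left h1,
    Measure.map_smul, map_add_left_eq_self, abs_of_pos (by positivity)]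

lemma pre_null (hZ : volume Z = 0) (hσ : 0 < σ) (t₁ : ℝ) : volume (pre t₁ σ Z) = 0 :=
  nonpos_iff_eq_zero.1 ((Measure.le_map_apply (by fun_prop) Z).trans_eq (by
    rw [map_time hσ, Measure.smul_apply, hZ, smul_zero]))

lemma lintegral_sc (hσ : 0 < σ) (W : E3 → ℝ) (g : E3 → ℝ≥0∞) :
    ∫⁻ y, g (x₁ + σ • y) ∂(ar (sc W x₁ σ)) = ENNReal.ofReal (σ ^ 2)⁻¹ * ∫⁻ y, g y ∂(ar W) := by
  have h := lintegral_map_equiv (μ := ar (sc W x₁ σ)) g (aff x₁ hσ.ne')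
  rw [map_ar_sc hσ, lintegral_smul_measure] at h
  exact h.symm

lemma bk_rs (h : IsW0 w I Z A) (hσ : 0 < σ) (hf : ContDiff ℝ 1 fun p : ℝ × E3 => f p.1 p.2)
    {t : ℝ} (ht : t ∈ pre t₁ σ I) :
    bk (rs w t₁ x₁ σ) (fun t x => f (t₁ + σ ^ 2 * t) (x₁ + σ • x)) t = bk w f (t₁ + σ ^ 2 * t) := by
  have h2 : ContDiff ℝ 2 (w (t₁ + σ ^ 2 * t)) := (h.slice ht).smooth.of_le (by norm_cast)
  have h3 : Differentiable ℝ (f (t₁ + σ ^ 2 * t)) :=
    (hf.comp (contDiff_const.prodMk contDiff_id)).differentiable one_ne_zero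
  have e := integral_sc (x₁ := x₁) hσ (w (t₁ + σ ^ 2 * t)) fun x => σ ^ 2 *
    (deriv (fun s => f s x) (t₁ + σ ^ 2 * t) - lap (w (t₁ + σ ^ 2 * t)) x
      * ⟪gradient (f (t₁ + σ ^ 2 * t)) x, gradient (w (t₁ + σ ^ 2 * t)) x⟫
      - lap (w (t₁ + σ ^ 2 * t)) x ^ 2 * f (t₁ + σ ^ 2 * t) x)
  rw [integral_const_mul (μ := ar (w _)), inv_mul_cancel_left₀ (by positivity)] at e
  refine Eq.trans (integral_congr_ae (Eventually.of_forall fun x => ?_)) e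
  have h4 := ((P218UX.hasDerivAt_fst (hf.differentiable one_ne_zero
    (t₁ + σ ^ 2 * t, x₁ + σ • x))).differentiableAt.hasDerivAt.comp t
      (((hasDerivAt_id t).const_mul (σ ^ 2)).const_add t₁)).deriv
  have h5 : gradient (fun x => f (t₁ + σ ^ 2 * t) (x₁ + σ • x)) x
      = σ • gradient (f (t₁ + σ ^ 2 * t)) (x₁ + σ • x) := by
    have h6 := ((h3 _).hasFDerivAt.comp x (hasFDerivAt_aff x₁ σ x)).fderiv
    refine ext_inner_right ℝ fun v => ?_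
    rw [real_inner_smul_left, inner_gradient_left, inner_gradient_left]
    exact (congrArg (fun L : E3 →L[ℝ] ℝ => L v) h6).trans (by simp)
  change deriv ((fun s => f s (x₁ + σ • x)) ∘ fun s => t₁ + σ ^ 2 * id s) t - _ - _ = _
  rw [h4, h5, rs, lap_sc hσ.ne' h2, gradient_sc hσ.ne' (h2.differentiable (by norm_num)),
    real_inner_smul_left]
  ring

theorem dfc_rs (h : IsW0 w I Z A) (hσ : 0 < σ) (hf : ContDiff ℝ 1 fun p : ℝ × E3 => f p.1 p.2)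
    {a b : ℝ} (ha : a ∈ pre t₁ σ I) (hb : b ∈ pre t₁ σ I) :
    dfc (rs w t₁ x₁ σ) (fun t x => f (t₁ + σ ^ 2 * t) (x₁ + σ • x)) a b
      = (σ ^ 2)⁻¹ * dfc w f (t₁ + σ ^ 2 * a) (t₁ + σ ^ 2 * b) := by
  rw [dfc, intervalIntegral.integral_congr fun t ht =>
    bk_rs h hσ hf ((pre_conn h.conn t₁ σ).uIcc_subset ha hb ht),
    intervalIntegral.integral_comp_add_mul _ (by positivity), rs, rs, integral_sc hσ,
    integral_sc hσ, dfc, smul_eq_mul]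
  ring

theorem rs0 (h : IsW0 w I Z A) (t₁ : ℝ) (x₁ : E3) (hσ : 0 < σ) :
    IsW0 (rs w t₁ x₁ σ) (pre t₁ σ I) (pre t₁ σ Z) A := by
  have hc : Continuous fun t : ℝ => t₁ + σ ^ 2 * t := by fun_prop
  have hT : ContDiff ℝ ∞ fun p : ℝ × E3 => (t₁ + σ ^ 2 * p.1, x₁ + σ • p.2) := by fun_prop
  have hl : ∀ t ∈ pre t₁ σ I, ∀ x, rs w t₁ x₁ σ t x = 0 →
      ∃ J, t ∈ J ∧ IsFlow (rs w t₁ x₁ σ) J := fun t ht x hx => by
    obtain ⟨a, b, h1, -, h2⟩ := h.loc ⟨ht, h.notMem ((sc_eq_zero hσ.ne').1 hx)⟩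
    exact ⟨_, h1, isFlow_rs h2.toIsFlow t₁ x₁ hσ⟩
  refine ⟨h.isOpen.preimage hc, pre_conn h.conn t₁ σ, h.closed.preimage hc, pre_null h.null hσ t₁,
    (h.smooth.comp hT.contDiffOn fun p hp => ⟨hp.1, mem_univ _⟩).div_const σ,
    fun t ht x hx => ?_, fun t ht x hx => ?_, fun t ht => ?_, h.one_le,
    fun _ ht => AR_sc hσ (h.ratio _ ht), fun a b hab K hK => ?_, fun f h1 h2 h3 a ha b hb hab => ?_⟩
  · obtain ⟨J, h1, h2⟩ := hl t ht x hx
    exact h2.eik t h1 x hx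
  · obtain ⟨J, h1, h2⟩ := hl t ht x hx
    exact h2.eqn t h1 x hx
  · obtain ⟨c, h1, h2⟩ := h.sing _ ht
    exact ⟨c / σ, div_ne_zero h1 hσ.ne', funext fun x => by simp [rs, sc, h2]⟩
  · rcases lt_or_ge b a with hba | hba
    · simp [hba]
    have hK' : IsCompact ((fun x : E3 => x₁ + σ • x) '' K) := hK.image (by fun_prop)
    have hs := h.conn.out (hab (left_mem_Icc.2 hba)) (hab (right_mem_Icc.2 hba))
    set G : ℝ → ℝ≥0∞ := fun t => ∫⁻ x in (fun x : E3 => x₁ + σ • x) '' K,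
      ENNReal.ofReal (lap (w t) x ^ 2) ∂(ar (w t))
    have e1 : ∀ t ∈ Icc a b, ∫⁻ x in K, ENNReal.ofReal (lap (rs w t₁ x₁ σ t) x ^ 2)
        ∂(ar (rs w t₁ x₁ σ t)) ≤ G (t₁ + σ ^ 2 * t) := fun t ht => by
      have h2 : ContDiff ℝ 2 (w (t₁ + σ ^ 2 * t)) := (h.slice (hab ht)).smooth.of_le (by norm_cast)
      have e := lintegral_sc (x₁ := x₁) hσ (w (t₁ + σ ^ 2 * t))
        (((fun x : E3 => x₁ + σ • x) '' K).indicator fun x => ENNReal.ofReal (σ ^ 2)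
          * ENNReal.ofReal (lap (w (t₁ + σ ^ 2 * t)) x ^ 2))
      rw [lintegral_indicator hK'.measurableSet, lintegral_const_mul' _ _ ENNReal.ofReal_ne_top,
        ← mul_assoc, ← ENNReal.ofReal_mul (by positivity), inv_mul_cancel₀ (by positivity),
        ENNReal.ofReal_one, one_mul] at e
      refine le_trans ?_ e.le
      rw [← lintegral_indicator hK.measurableSet]
      refine lintegral_mono fun x => ?_
      by_cases hx : x ∈ K
      · rw [indicator_of_mem hx, indicator_of_mem (mem_image_of_mem _ hx), rs, lap_sc hσ.ne' h2,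
          mul_pow, ENNReal.ofReal_mul (by positivity)]
      · rw [indicator_of_notMem hx]; exact zero_le
    refine (setLIntegral_mono' measurableSet_Icc e1).trans_lt ?_
    have hE : MeasurableEmbedding fun t : ℝ => t₁ + σ ^ 2 * t :=
      ((Homeomorph.mulLeft₀ (σ ^ 2) (by positivity)).trans
        (Homeomorph.addLeft t₁)).measurableEmbedding
    have e3 := hE.lintegral_map ((Icc (t₁ + σ ^ 2 * a) (t₁ + σ ^ 2 * b)).indicator G) (μ := volume)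
    rw [map_time hσ, lintegral_smul_measure, lintegral_indicator measurableSet_Icc] at e3
    refine lt_of_le_of_lt ?_ (e3.symm.trans_lt
      (ENNReal.mul_lt_top ENNReal.ofReal_lt_top (h.hsq _ _ hs _ hK')))
    rw [← lintegral_indicator measurableSet_Icc]
    refine lintegral_mono fun t => ?_
    by_cases ht : t ∈ Icc a b
    · rw [indicator_of_mem ht, indicator_of_mem (show _ ∈ Icc _ _ from
        ⟨by gcongr; exact ht.1, by gcongr; exact ht.2⟩)]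
    · rw [indicator_of_notMem ht]; exact zero_le
  · set H : (ℝ × E3) ≃ₜ (ℝ × E3) := ((Homeomorph.mulLeft₀ (σ ^ 2) (by positivity)).trans
      (Homeomorph.addLeft t₁)).prodCongr
        ((Homeomorph.smulOfNeZero σ hσ.ne').trans (Homeomorph.addLeft x₁))
    have e : ∀ p : ℝ × E3, H.symm p = ((σ ^ 2)⁻¹ * (-t₁ + p.1), σ⁻¹ • (-x₁ + p.2)) := fun p => by
      rw [Homeomorph.symm_apply_eq]
      change p = (t₁ + σ ^ 2 * _, x₁ + σ • _)
      rw [mul_inv_cancel_left₀ (by positivity), smul_inv_smul₀ hσ.ne']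
      simp
    have h4 : ContDiff ℝ 1 fun p : ℝ × E3 => f (H.symm p).1 (H.symm p).2 := by
      simp only [e]
      exact h1.comp (f := fun p : ℝ × E3 => ((σ ^ 2)⁻¹ * (-t₁ + p.1), σ⁻¹ • (-x₁ + p.2)))
        (by fun_prop)
    have h5 := dfc_rs (x₁ := x₁) (f := fun t x => f (H.symm (t, x)).1 (H.symm (t, x)).2) h hσ h4
      ha.1 hb.1
    have e2 : (fun t x => f (H.symm (t₁ + σ ^ 2 * t, x₁ + σ • x)).1
        (H.symm (t₁ + σ ^ 2 * t, x₁ + σ • x)).2) = f := by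
      ext t x
      rw [show (t₁ + σ ^ 2 * t, x₁ + σ • x) = H (t, x) from rfl, H.symm_apply_apply]
    rw [e2] at h5
    rw [h5]
    have h6 : HasCompactSupport fun p : ℝ × E3 => f (H.symm p).1 (H.symm p).2 :=
      h2.comp_homeomorph H.symm
    exact mul_nonneg (by positivity) (h.brakke (fun t x => f (H.symm (t, x)).1 (H.symm (t, x)).2)
      h4 h6 (fun _ _ => h3 _ _) _ ha _ hb
      (add_le_add_right (mul_le_mul_of_nonneg_left hab (sq_nonneg σ)) _))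

theorem rsReg {p : ℝ × E3} (hσ : 0 < σ) (h : RegAt w Z (t₁ + σ ^ 2 * p.1, x₁ + σ • p.2)) :
    RegAt (rs w t₁ x₁ σ) (pre t₁ σ Z) p := by
  obtain ⟨v, N, h1, h2⟩ := h
  have hT : ContDiff ℝ ∞ fun p : ℝ × E3 => (t₁ + σ ^ 2 * p.1, x₁ + σ • p.2) := by fun_prop
  have hO := h2.isOpen.preimage hT.continuous
  refine ⟨fun q => v (t₁ + σ ^ 2 * q.1, x₁ + σ • q.2) / σ, _, h1, hO,
    (h2.smooth.comp hT.contDiffOn fun _ hq => hq).div_const σ, fun q hq h0 => ?_,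
    fun q hq hZ => ?_, fun q hq hZ h0 => ?_⟩
  · filter_upwards [(hT.continuous.tendsto q).eventually (h2.eik _ hq (by simpa [hσ.ne'] using h0)),
      hO.mem_nhds hq] with q' e1 e2
    have h3 : DifferentiableAt ℝ (fun x => v (t₁ + σ ^ 2 * q'.1, x)) (x₁ + σ • q'.2) :=
      ((h2.smooth.contDiffAt (h2.isOpen.mem_nhds e2)).differentiableAt (by simp)).comp _
        (by fun_prop)
    have h4 := ((h3.hasFDerivAt.comp q'.2 (hasFDerivAt_aff x₁ σ q'.2)).mul_const σ⁻¹).fderiv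
    rw [← e1]
    congr 1
    refine ext_inner_right ℝ fun u => ?_
    rw [inner_gradient_left, inner_gradient_left]
    simp only [div_eq_mul_inv]
    refine (congrArg (fun L : E3 →L[ℝ] ℝ => L u) h4).trans ?_
    simp [hσ.ne']
  · rw [rs, sc_eq_zero hσ.ne', ← h2.zero _ hq hZ]
    simp [hσ.ne']
  · obtain ⟨s, e1, e2⟩ := h2.pm _ hq hZ (by simpa [hσ.ne'] using h0)
    refine ⟨s, e1, ((hT.continuous.tendsto q).eventually e2).mono fun q' e3 => ?_⟩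
    rw [e3, rs, sc, mul_div_assoc]

theorem rs1 (h : IsW w I Z A) (t₁ : ℝ) (x₁ : E3) (hσ : 0 < σ) :
    IsW (rs w t₁ x₁ σ) (pre t₁ σ I) (pre t₁ σ Z) A := by
  refine ⟨rs0 h.toIsW0 t₁ x₁ hσ, fun p hp s hs h1 h2 => rsReg hσ (h.reg _ hp _ hs (by
    have : 0 < σ ^ 2 := by positivity
    exact add_lt_add_right (mul_lt_mul_of_pos_left h1 this) _) ?_)⟩
  rw [rs, gd_sc hσ] at h2
  rwa [add_sub_add_left_eq_sub, ← mul_sub, Real.sqrt_mul (sq_nonneg σ), Real.sqrt_sq hσ.le]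

theorem rsG0 (h : IsG0 w I Z A C) (t₁ : ℝ) (x₁ : E3) (hσ : 0 < σ) :
    IsG0 (rs w t₁ x₁ σ) (pre t₁ σ I) (pre t₁ σ Z) A C :=
  ⟨rs0 h.toIsW0 t₁ x₁ hσ, h.one_le', fun _ ht => P218UU.LGB_sc
    ((h.slice ht).smooth.of_le (by norm_cast)) (h.lgb _ ht) x₁ hσ⟩

theorem rsG (h : IsWG w I Z A C) (t₁ : ℝ) (x₁ : E3) (hσ : 0 < σ) :
    IsWG (rs w t₁ x₁ σ) (pre t₁ σ I) (pre t₁ σ Z) A C :=
  ⟨rs1 h.toIsW t₁ x₁ hσ, h.one_le', (rsG0 h.toIsG0 t₁ x₁ hσ).lgb⟩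

lemma pre_Ioo {a s : ℝ} (hs : 0 < s) : pre 0 s (Ioo a 0) = Ioo (a / s ^ 2) 0 := by
  ext t
  rw [pre, mem_preimage, zero_add, P218UU.mem_resc hs]

lemma pre_zs (Z : Set ℝ) (s : ℝ) : pre 0 s Z = zs Z s := by simp [pre, zs]

theorem calcW : CalcW where
  stm_meas _ _ _ _ h _ hf := stm_meas h hf
  stm_lint _ _ _ _ h _ hf := stm_lint h hf
  stm_int _ _ _ _ h _ hf := stm_int h hf
  stm_fin _ _ _ _ h _ hK hI := stm_fin h hK hI
  stm_ae _ _ _ _ h := stm_ae h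
  lap_int _ _ _ _ h _ hK hI := lap_int h hK hI
  bk_int _ _ _ _ h _ _ hf _ ha _ hb := bk_int h hf ha hb
  brakke _ _ _ _ h _ _ hf _ ha _ hb hab h0 := brakke h hf ha hb hab h0
  dfc_lin _ _ _ _ h _ _ _ hf hg _ ha _ hb := dfc_lin h hf hg ha hb
  dfc_add _ _ _ _ h _ _ hf _ ha _ hb _ hc := dfc_add h hf ha hb hc
  dfc_le _ _ _ _ h _ _ _ hf hg _ ha _ hb hab h0 := dfc_le h hf hg ha hb hab h0
  bk_green _ _ _ _ h _ _ _ hψ hf t ht :=
    let ⟨_, h1, h2⟩ := hψ.supp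
    ((bk_green_core h hψ.isOpen hψ.conn hψ.sub hψ.smooth hf h1 (Or.inl h2)).2 t ht).2
  green _ _ _ _ h _ _ _ hψ hf _ ha _ hb hab h0 :=
    let ⟨_, h1, h2⟩ := hψ.supp
    green_core h hψ.isOpen hψ.conn hψ.sub hψ.smooth hf h1 (Or.inl h2) ha hb hab h0
  nu _ _ _ _ h _ hχ hc h0 _ _ _ hab he := nu h hχ hc h0 hab he
  rs0 _ _ _ _ h t₁ x₁ _ hσ := rs0 h t₁ x₁ hσ
  rsReg _ _ _ _ _ _ hσ h := rsReg hσ h
  rs1 _ _ _ _ h t₁ x₁ _ hσ := rs1 h t₁ x₁ hσ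
  rsG0 _ _ _ _ _ h t₁ x₁ _ hσ := rsG0 h t₁ x₁ hσ
  rsG _ _ _ _ _ h t₁ x₁ _ hσ := rsG h t₁ x₁ hσ
  resc0 _ _ _ _ h _ hs := by
    rw [P218UU.resc_eq_rs, ← pre_Ioo hs, ← pre_zs]; exact rs0 h 0 0 hs
  rescG0 _ _ _ _ _ h _ hs := by
    rw [P218UU.resc_eq_rs, ← pre_Ioo hs, ← pre_zs]; exact rsG0 h 0 0 hs
  rescG _ _ _ _ _ h _ hs := by
    rw [P218UU.resc_eq_rs, ← pre_Ioo hs, ← pre_zs]; exact rsG h 0 0 hs
  dfc_rs _ _ _ _ h _ _ _ hσ _ hf _ ha _ hb := dfc_rs h hσ hf ha hb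

end Vale.Agent.P218WC
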