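import Vale.Agent.P218WA.Props
import Vale.Agent.P218UX.Mono

/-! The space-time measure of a weak flow. -/

open MeasureTheory Set Filter Topology Metric Module ProbabilityTheory
open scoped ENNReal NNReal RealInnerProductSpace ContDiff

namespace Vale.Agent.P218WC

open Vale.Agent.P218UA Vale.Agent.P218WA
open Vale.Agent.P218UX (kap locFin ae_ar)
open Vale.Agent.P218.H63 (lap)

variable {w : ℝ → E3 → ℝ} {I Z J : Set ℝ} {A : ℝ}

/-- continuity at the regular times of the integrals of continuous functions -/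
theorem continuousOn_integral (h : IsW0 w I Z A) (hJ : IsOpen J) (hJI : J ⊆ I \ Z)
    {f : ℝ → E3 → ℝ} (hf : ContinuousOn (fun p : ℝ × E3 => f p.1 p.2) (J ×ˢ univ)) {K : Set E3}
    (hK : IsCompact K) (hs : ∀ t ∈ J, ∀ x, x ∉ K → f t x = 0) :
    ContinuousOn (fun t => ∫ x, f t x ∂(ar (w t))) J := fun t ht => by
  obtain ⟨a, b, h1, -, h2⟩ := h.loc (hJI ht)
  exact ((P218UX.continuousOn_integral h2.toIsFlow (hJ.inter isOpen_Ioo) inter_subset_right
    (hf.mono (prod_mono_left inter_subset_left)) hK fun t ht => hs t ht.1).continuousAt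
      ((hJ.inter isOpen_Ioo).mem_nhds ⟨ht, h1⟩)).continuousWithinAt

lemma kap_locFin (h : IsW0 w I Z A) (t : ℝ) : IsLocallyFiniteMeasure (kap w (I \ Z) t) := by
  by_cases ht : t ∈ I \ Z
  · rw [kap, indicator_of_mem ht]; exact locFin (h.slice ht.1)
  · rw [kap, indicator_of_notMem ht]; infer_instance

lemma measurable_kap_cont (h : IsW0 w I Z A) {φ : E3 → ℝ} (hφ : Continuous φ)
    (h0 : ∀ x, 0 ≤ φ x) {K : Set E3} (hK : IsCompact K) (hs : ∀ x, x ∉ K → φ x = 0) :
    Measurable fun t => ∫⁻ x, ENNReal.ofReal (φ x) ∂(kap w (I \ Z) t) := by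
  classical
  have e : (fun t => ∫⁻ x, ENNReal.ofReal (φ x) ∂(kap w (I \ Z) t)) = fun t => ENNReal.ofReal
      ((I \ Z).piecewise (fun t => ∫ x, φ x ∂(ar (w t))) (fun _ => 0) t) := by
    ext t
    have := kap_locFin h t
    rw [← ofReal_integral_eq_lintegral_ofReal (hφ.integrable_of_hasCompactSupport
      (HasCompactSupport.intro hK hs)) (Eventually.of_forall h0)]
    by_cases ht : t ∈ I \ Z
    · rw [kap, indicator_of_mem ht, piecewise_eq_of_mem _ _ _ ht]
    · rw [kap, indicator_of_notMem ht, piecewise_eq_of_notMem _ _ _ ht, integral_zero_measure]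
  rw [e]
  exact ((continuousOn_integral h h.isOpen_reg subset_rfl (f := fun _ x => φ x)
    (hφ.comp continuous_snd).continuousOn hK fun _ _ => hs).measurable_piecewise continuousOn_const
    h.isOpen_reg.measurableSet).ennreal_ofReal

lemma measurable_kap_open (h : IsW0 w I Z A) {V : Set E3} (hV : IsOpen V) {R : ℝ}
    (hR : V ⊆ closedBall 0 R) : Measurable fun t => kap w (I \ Z) t V := by
  have hne : Vᶜ.Nonempty := by
    obtain ⟨x, hx⟩ := NormedSpace.exists_lt_norm ℝ E3 R
    exact ⟨x, fun h1 => absurd (mem_closedBall_zero_iff.1 (hR h1)) (not_le.2 hx)⟩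
  have hc : ∀ k : ℕ, Continuous fun x : E3 => min 1 (k * infDist x Vᶜ) := fun k =>
    continuous_const.min (continuous_const.mul (continuous_infDist_pt _))
  have hz : ∀ (k : ℕ) (x : E3), x ∉ V → min 1 (k * infDist x Vᶜ) = 0 := fun k x hx => by
    rw [infDist_zero_of_mem (show x ∈ Vᶜ from hx)]; simp
  refine measurable_of_tendsto_metrizable (fun k : ℕ => measurable_kap_cont h (hc k)
    (fun x => le_min zero_le_one (mul_nonneg k.cast_nonneg infDist_nonneg))
    (isCompact_closedBall 0 R) fun x hx => hz k x fun h1 => hx (hR h1))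
    (tendsto_pi_nhds.2 fun t => ?_)
  rw [← lintegral_indicator_one hV.measurableSet]
  refine lintegral_tendsto_of_tendsto_of_monotone
    (fun k => (hc k).measurable.ennreal_ofReal.aemeasurable)
    (Eventually.of_forall fun x a b hab => ENNReal.ofReal_le_ofReal (min_le_min le_rfl
      (mul_le_mul_of_nonneg_right (Nat.cast_le.2 hab) infDist_nonneg)))
    (Eventually.of_forall fun x => ?_)
  by_cases hx : x ∈ V
  · have hp : 0 < infDist x Vᶜ :=
      (hV.isClosed_compl.notMem_iff_infDist_pos hne).1 fun h1 => h1 hx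
    refine tendsto_const_nhds.congr' ?_
    filter_upwards [(tendsto_natCast_atTop_atTop.atTop_mul_const hp).eventually_ge_atTop 1]
      with k hk
    rw [min_eq_left hk, indicator_of_mem hx]; simp
  · simp [hz _ x hx, hx]

lemma measurable_kap_restrict (h : IsW0 w I Z A) (n : ℕ) :
    Measurable fun t => (kap w (I \ Z) t).restrict (ball 0 n) := by
  have : ∀ t, IsFiniteMeasure ((kap w (I \ Z) t).restrict (ball 0 n)) := fun t => by
    have := kap_locFin h t
    exact isFiniteMeasure_restrict.2 measure_ball_lt_top.ne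
  refine Measurable.measure_of_isPiSystem (S := {s | IsOpen s}) BorelSpace.measurable_eq
    isPiSystem_isOpen (fun s hs => ?_) ?_
  · have hs' : IsOpen s := hs
    simp only [Measure.restrict_apply hs'.measurableSet]
    exact measurable_kap_open h (hs'.inter isOpen_ball)
      (inter_subset_right.trans ball_subset_closedBall)
  · simp only [Measure.restrict_apply_univ]
    exact measurable_kap_open h isOpen_ball ball_subset_closedBall

lemma measurable_kap_map (h : IsW0 w I Z A) :
    Measurable fun t => (kap w (I \ Z) t).map (Prod.mk t) := by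
  refine Measure.measurable_measure.2 fun S hS => ?_
  have e : (fun t => (kap w (I \ Z) t).map (Prod.mk t) S)
      = fun t => ⨆ n : ℕ, (kap w (I \ Z) t).restrict (ball 0 n) (Prod.mk t ⁻¹' S) := by
    ext t
    have hm : MeasurableSet (Prod.mk t ⁻¹' S) := measurable_prodMk_left hS
    simp only [Measure.map_apply measurable_prodMk_left hS, Measure.restrict_apply hm]
    rw [← Monotone.measure_iUnion fun a b hab =>
      inter_subset_inter_right _ (ball_subset_ball (Nat.cast_le.2 hab)), ← inter_iUnion,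
      iUnion_ball_nat, inter_univ]
  rw [e]
  refine Measurable.iSup fun n => ?_
  refine Kernel.measurable_kernel_prodMk_left_of_finite
    (κ := ⟨fun t => (kap w (I \ Z) t).restrict (ball 0 n), measurable_kap_restrict h n⟩) hS
    fun t => ?_
  have := kap_locFin h t
  exact isFiniteMeasure_restrict.2 measure_ball_lt_top.ne

lemma ae_reg (h : IsW0 w I Z A) {S : Set ℝ} (hS : MeasurableSet S) (hI : S ⊆ I) :
    ∀ᵐ t ∂(volume.restrict S), t ∈ S ∧ t ∈ I \ Z := by
  filter_upwards [ae_restrict_mem hS, ae_restrict_of_ae (ae_notMem h.null)] with t h1 h2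
  exact ⟨h1, hI h1, h2⟩

/-- the kernel of the slices in space-time -/
noncomputable def ker (h : IsW0 w I Z A) : Kernel ℝ (ℝ × E3) :=
  ⟨fun t => (kap w (I \ Z) t).map (Prod.mk t), measurable_kap_map h⟩

lemma ker_ae (h : IsW0 w I Z A) :
    ∀ᵐ t ∂(volume.restrict I), ker h t = (ar (w t)).map (Prod.mk t) := by
  filter_upwards [ae_reg h h.isOpen.measurableSet subset_rfl] with t ht
  change (kap w (I \ Z) t).map (Prod.mk t) = _
  rw [kap, indicator_of_mem ht.2]

lemma stm_eq (h : IsW0 w I Z A) : stm w I = (volume.restrict I).bind (ker h) :=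
  Measure.bind_congr_right ((ker_ae h).mono fun _ ht => ht.symm)

theorem stm_meas (h : IsW0 w I Z A) {f : ℝ × E3 → ℝ≥0∞} (hf : Measurable f) :
    AEMeasurable (fun t => ∫⁻ x, f (t, x) ∂(ar (w t))) (volume.restrict I) := by
  refine ((Measure.measurable_lintegral hf).comp (ker h).measurable).aemeasurable.congr ?_
  filter_upwards [ker_ae h] with t ht
  rw [Function.comp_apply, ht, lintegral_map hf measurable_prodMk_left]

theorem stm_lint (h : IsW0 w I Z A) {f : ℝ × E3 → ℝ≥0∞} (hf : Measurable f) :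
    ∫⁻ p, f p ∂(stm w I) = ∫⁻ t in I, ∫⁻ x, f (t, x) ∂(ar (w t)) := by
  rw [stm_eq h, Measure.lintegral_bind (ker h).measurable.aemeasurable hf.aemeasurable]
  refine lintegral_congr_ae ?_
  filter_upwards [ker_ae h] with t ht
  rw [ht, lintegral_map hf measurable_prodMk_left]

theorem stm_int (h : IsW0 w I Z A) {f : ℝ × E3 → ℝ} (hf : Integrable f (stm w I)) :
    IntegrableOn (fun t => ∫ x, f (t, x) ∂(ar (w t))) I ∧
      ∫ p, f p ∂(stm w I) = ∫ t in I, ∫ x, f (t, x) ∂(ar (w t)) := by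
  rw [stm_eq h, Measure.comp_eq_comp_const_apply] at hf ⊢
  have e : (fun t => ∫ p, f p ∂(ker h t)) =ᵐ[volume.restrict I]
      fun t => ∫ x, f (t, x) ∂(ar (w t)) := by
    filter_upwards [ker_ae h] with t ht
    rw [ht, (measurableEmbedding_prodMk_left t).integral_map]
  refine ⟨Integrable.congr (by simpa using hf.integral_comp) e, ?_⟩
  rw [Kernel.integral_comp hf, Kernel.const_apply]
  exact integral_congr_ae e

/-- the space-time integral over a compact set is bounded by the integral over a box -/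
lemma lint_le_box (h : IsW0 w I Z A) {K : Set (ℝ × E3)} (hK : IsCompact K)
    (hKI : K ⊆ I ×ˢ univ) : ∃ (a b R : ℝ), 0 < R ∧ Icc a b ⊆ I ∧ K ⊆ Icc a b ×ˢ closedBall 0 R ∧
      ∀ f : ℝ × E3 → ℝ≥0∞, Measurable f → ∫⁻ p in K, f p ∂(stm w I)
        ≤ ∫⁻ t in Icc a b, ∫⁻ x in closedBall 0 R, f (t, x) ∂(ar (w t)) := by
  obtain ⟨R, hR0, hR⟩ := (hK.image continuous_snd).isBounded.subset_closedBall_lt 0 0
  obtain ⟨a, b, hab, hK'⟩ : ∃ a b, Icc a b ⊆ I ∧ Prod.fst '' K ⊆ Icc a b := by
    rcases K.eq_empty_or_nonempty with rfl | hne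
    · exact ⟨1, 0, by simp, by simp⟩
    · have h1 := hK.image continuous_fst
      obtain ⟨a, ha⟩ := h1.exists_isLeast (hne.image _)
      obtain ⟨b, hb⟩ := h1.exists_isGreatest (hne.image _)
      have h2 : Prod.fst '' K ⊆ I := by
        rintro _ ⟨p, hp, rfl⟩
        exact (hKI hp).1
      exact ⟨a, b, h.conn.out (h2 ha.1) (h2 hb.1), fun t ht => ⟨ha.2 ht, hb.2 ht⟩⟩
  have hs : K ⊆ Icc a b ×ˢ closedBall 0 R := fun p hp =>
    ⟨hK' (mem_image_of_mem _ hp), hR (mem_image_of_mem _ hp)⟩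
  refine ⟨a, b, R, hR0, hab, hs, fun f hf => ?_⟩
  rw [← lintegral_indicator hK.measurableSet, stm_lint h (hf.indicator hK.measurableSet),
    ← lintegral_indicator measurableSet_Icc]
  refine (setLIntegral_le_lintegral _ _).trans (lintegral_mono fun t => ?_)
  by_cases ht : t ∈ Icc a b
  · rw [indicator_of_mem ht, ← lintegral_indicator measurableSet_closedBall]
    refine lintegral_mono fun x => ?_
    by_cases hx : (t, x) ∈ K
    · rw [indicator_of_mem hx, indicator_of_mem (hs hx).2]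
    · rw [indicator_of_notMem hx]; exact zero_le
  · have e : ∀ x, (t, x) ∉ K := fun x hx => ht (hs hx).1
    simp [e]

theorem stm_fin (h : IsW0 w I Z A) {K : Set (ℝ × E3)} (hK : IsCompact K) (hKI : K ⊆ I ×ˢ univ) :
    stm w I K < ⊤ := by
  obtain ⟨a, b, R, hR, h1, -, h2⟩ := lint_le_box h hK hKI
  have h3 := h2 (fun _ => 1) measurable_const
  rw [setLIntegral_one] at h3
  refine (h3.trans (setLIntegral_mono' (g := fun _ => ENNReal.ofReal (A * R ^ 2)) measurableSet_Icc
    fun t ht => ?_)).trans_lt ?_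
  · rw [setLIntegral_one]
    exact h.ratio t (h1 ht) 0 R hR
  · rw [setLIntegral_const]
    exact ENNReal.mul_lt_top ENNReal.ofReal_lt_top measure_Icc_lt_top

theorem stm_ae (h : IsW0 w I Z A) : ∀ᵐ p ∂(stm w I), p.1 ∈ I \ Z ∧ w p.1 p.2 = 0 := by
  have hO : IsOpen ((I \ Z) ×ˢ (univ : Set E3)) := h.isOpen_reg.prod isOpen_univ
  have hm : MeasurableSet {p : ℝ × E3 | ¬(p.1 ∈ I \ Z ∧ w p.1 p.2 = 0)} := by
    have h1 : IsOpen (((I \ Z) ×ˢ (univ : Set E3)) ∩ (fun p : ℝ × E3 => w p.1 p.2) ⁻¹' {0}ᶜ) :=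
      h.smooth.continuousOn.isOpen_inter_preimage hO isOpen_compl_singleton
    have e : {p : ℝ × E3 | ¬(p.1 ∈ I \ Z ∧ w p.1 p.2 = 0)} = ((I \ Z) ×ˢ (univ : Set E3))ᶜ ∪
        (((I \ Z) ×ˢ (univ : Set E3)) ∩ (fun p : ℝ × E3 => w p.1 p.2) ⁻¹' {0}ᶜ) := by
      ext p
      simp only [mem_ofPred_eq, mem_union, mem_compl_iff, mem_prod, mem_univ, and_true,
        mem_inter_iff, mem_preimage, mem_singleton_iff]
      tauto
    exact e ▸ hO.measurableSet.compl.union h1.measurableSet
  rw [ae_iff, ← lintegral_indicator_one hm, stm_lint h (measurable_one.indicator hm)]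
  refine setLIntegral_eq_zero h.isOpen.measurableSet fun t ht => ?_
  refine lintegral_congr_ae (g := fun _ => 0) ?_ |>.trans lintegral_zero
  filter_upwards [ae_ar (h.slice ht).smooth.continuous] with x hx
  exact indicator_of_notMem (show (t, x) ∉ {p : ℝ × E3 | ¬(p.1 ∈ I \ Z ∧ w p.1 p.2 = 0)} from
    fun h1 => h1 ⟨⟨ht, h.notMem hx⟩, hx⟩) _

lemma continuousOn_lap (h : IsW0 w I Z A) :
    ContinuousOn (fun p : ℝ × E3 => lap (w p.1) p.2) ((I \ Z) ×ˢ univ) := fun p hp => by
  obtain ⟨a, b, h1, -, h2⟩ := h.loc hp.1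
  exact ((P218UX.continuousOn_lap h2.toIsFlow).continuousAt
    ((isOpen_Ioo.prod isOpen_univ).mem_nhds ⟨h1, trivial⟩)).continuousWithinAt

lemma continuousOn_grad (h : IsW0 w I Z A) :
    ContinuousOn (fun p : ℝ × E3 => gradient (w p.1) p.2) ((I \ Z) ×ˢ univ) := fun p hp => by
  obtain ⟨a, b, h1, -, h2⟩ := h.loc hp.1
  exact ((P218UX.continuousOn_grad h2.toIsFlow).continuousAt
    ((isOpen_Ioo.prod isOpen_univ).mem_nhds ⟨h1, trivial⟩)).continuousWithinAt

/-- functions which are continuous at the regular times are measurable for the space-time measure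
restricted to `J × ℝ³` -/
lemma aesm (h : IsW0 w I Z A) (hJ : IsOpen J) {F : Type*} [TopologicalSpace F]
    [TopologicalSpace.PseudoMetrizableSpace F] {g : ℝ × E3 → F}
    (hg : ContinuousOn g ((J \ Z) ×ˢ univ)) {S : Set (ℝ × E3)} (hS : MeasurableSet S)
    (hSJ : S ⊆ J ×ˢ univ) : AEStronglyMeasurable g ((stm w I).restrict S) := by
  have hm : MeasurableSet ((J \ Z) ×ˢ (univ : Set E3)) :=
    ((hJ.sdiff h.closed).prod isOpen_univ).measurableSet
  have e : ((stm w I).restrict S).restrict ((J \ Z) ×ˢ univ) = (stm w I).restrict S := by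
    refine Measure.restrict_eq_self_of_ae_mem ?_
    filter_upwards [ae_restrict_of_ae (stm_ae h), ae_restrict_mem hS] with p h1 h2
    exact ⟨⟨(hSJ h2).1, h1.1.2⟩, trivial⟩
  exact e ▸ hg.aestronglyMeasurable hm

theorem lap_int (h : IsW0 w I Z A) {K : Set (ℝ × E3)} (hK : IsCompact K) (hKI : K ⊆ I ×ˢ univ) :
    IntegrableOn (fun p : ℝ × E3 => lap (w p.1) p.2 ^ 2) K (stm w I) := by
  classical
  have hc : ContinuousOn (fun p : ℝ × E3 => lap (w p.1) p.2 ^ 2) _ := (continuousOn_lap h).pow 2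
  have hm : MeasurableSet ((I \ Z) ×ˢ (univ : Set E3)) :=
    (h.isOpen_reg.prod isOpen_univ).measurableSet
  refine ⟨aesm h h.isOpen hc hK.measurableSet hKI, (hasFiniteIntegral_iff_ofReal
    (Eventually.of_forall fun p => sq_nonneg _)).2 ?_⟩
  obtain ⟨a, b, R, -, h1, -, h2⟩ := lint_le_box h hK hKI
  have h3 := h2 _ (hc.measurable_piecewise (continuousOn_const (c := 0)) hm).ennreal_ofReal
  refine lt_of_eq_of_lt (lintegral_congr_ae ?_) (h3.trans_lt (lt_of_eq_of_lt
    (lintegral_congr_ae ?_) (h.hsq a b h1 _ (isCompact_closedBall 0 R))))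
  · filter_upwards [ae_restrict_of_ae (stm_ae h)] with p hp
    rw [piecewise_eq_of_mem _ _ _ (show p ∈ (I \ Z) ×ˢ univ from ⟨hp.1, trivial⟩)]
  · filter_upwards [ae_reg h measurableSet_Icc h1] with t ht
    refine lintegral_congr fun x => ?_
    rw [piecewise_eq_of_mem _ _ _ (show (t, x) ∈ (I \ Z) ×ˢ univ from ⟨ht.2, trivial⟩)]

/-- integrability in time of slice integrals with quadratic growth in the mean curvature -/
theorem slice_int (h : IsW0 w I Z A) (hJ : IsOpen J) (hJI : J ⊆ I) {g : ℝ × E3 → ℝ}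
    (hg : ContinuousOn g ((J \ Z) ×ˢ univ)) {K : Set E3} (hK : IsCompact K) {a b M : ℝ}
    (hab : uIcc a b ⊆ J) (h0 : ∀ t ∈ uIcc a b, ∀ x, x ∉ K → g (t, x) = 0)
    (hM : ∀ t ∈ uIcc a b, ∀ x ∈ K, w t x = 0 → |g (t, x)| ≤ M * (1 + lap (w t) x ^ 2)) :
    IntervalIntegrable (fun t => ∫ x, g (t, x) ∂(ar (w t))) volume a b := by
  have hS : IsCompact (uIcc a b ×ˢ K) := isCompact_uIcc.prod hK
  have hSJ : uIcc a b ×ˢ K ⊆ J ×ˢ univ := prod_mono hab (subset_univ _)
  have hSI := hSJ.trans (prod_mono_left hJI)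
  have hf : IsFiniteMeasure ((stm w I).restrict (uIcc a b ×ˢ K)) :=
    isFiniteMeasure_restrict.2 (stm_fin h hS hSI).ne
  have h1 : IntegrableOn g (uIcc a b ×ˢ K) (stm w I) := by
    refine (((integrable_const 1).add (lap_int h hS hSI)).const_mul M).mono'
      (aesm h hJ hg hS.measurableSet hSJ) ?_
    filter_upwards [ae_restrict_of_ae (stm_ae h), ae_restrict_mem hS.measurableSet] with p h1 h2
    exact hM p.1 h2.1 p.2 h2.2 h1.2
  have h2 := ((stm_int h ((integrable_indicator_iff hS.measurableSet).2 h1)).1.mono_set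
    (hab.trans hJI)).congr_fun (g := fun t => ∫ x, g (t, x) ∂(ar (w t))) (fun t ht => ?_)
      measurableSet_uIcc
  · exact h2.intervalIntegrable
  · refine integral_congr_ae (Eventually.of_forall fun x => ?_)
    by_cases hx : x ∈ K
    · exact indicator_of_mem (show (t, x) ∈ uIcc a b ×ˢ K from ⟨ht, hx⟩) _
    · exact (indicator_of_notMem (fun h' => hx h'.2) _).trans (h0 t ht x hx).symm

end Vale.Agent.P218WC
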